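import Crest.Statements.S0007
import Crest.Agent.R007.Main6

set_option autoImplicit false
open Crest.NumberTheoryR.HeckeTwoAdic
open Crest Crest.NumberTheoryR

namespace Crest.Agent.S0007

/-- Let N be odd. There are endomorphisms T ℓ i, D d i of the spaces of modular forms of weight i and level Γ₁(N) acting by the classical coset formulas for the Hecke operators T_ℓ (primes ℓ ∤ 2N) and the diamond operators ⟨d⟩; for them, the 2-adic Hecke algebra T₂(N) — the inverse limit over k of ℤ₂ ⊗ (the ring generated by the T_ℓ and the ℓ S_ℓ = ℓ^(i-1)⟨ℓ⟩ on weights 1, …, k) — is commutative and non-zero, and for each minimal prime P the quotient T₂(N)/P has Krull dimension at most 4. -/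
theorem result (N : ℕ) (hN : Odd N) :
    ∃ (T D : ℕ → (i : ℕ) → (MF N i →ₗ[ℂ] MF N i)),
      IsDiamondFamily N D ∧ IsHeckeFamily N T D ∧
      ∃ hcomm : ∀ a b : HeckeTwo N T D, a * b = b * a,
        Nontrivial (HeckeTwo N T D) ∧
        ∀ P : Ideal (HeckeTwo N T D),
          P ∈ @minimalPrimes (HeckeTwo N T D) (commRingOfComm (HeckeTwo N T D) hcomm).toCommSemiring →
          @ringKrullDim (HeckeTwo N T D ⧸ P)
            (@Ideal.Quotient.commRing (HeckeTwo N T D) (commRingOfComm (HeckeTwo N T D) hcomm) P).toCommSemiring ≤ 4 :=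
  Crest.Agent.R007.Main.main N hN

end Crest.Agent.S0007
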