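import Crest.Statements.S0042
import Crest.Agent.R032.Gadget
import Crest.Agent.R032.Real
import Crest.Agent.R032.GSide2

set_option autoImplicit false
open Crest Crest.CombinatoricsR

namespace Crest.Agent.S0042

/-- There are real constants η > 0 and c > 0 and a threshold n₀ such that for every natural number n ≥ n₀ some n points of the closed unit square have the property that every triangle with three distinct vertices among them has area at least c · n ^ (-2 + η). The area of the triangle p q r is half the absolute value of the determinant of q - p and r - p. -/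
theorem result :
    ∃ η : ℝ, 0 < η ∧ ∃ c : ℝ, 0 < c ∧ ∃ n₀ : ℕ, ∀ n : ℕ, n₀ ≤ n →
      ∃ P : Finset (ℝ × ℝ), P.card = n ∧
        (∀ p ∈ P, 0 ≤ p.1 ∧ p.1 ≤ 1 ∧ 0 ≤ p.2 ∧ p.2 ≤ 1) ∧
        ∀ p ∈ P, ∀ q ∈ P, ∀ r ∈ P, p ≠ q → p ≠ r → q ≠ r →
          c * (n : ℝ) ^ (-2 + η) ≤ |(q.1 - p.1) * (r.2 - p.2) - (q.2 - p.2) * (r.1 - p.1)| / 2 :=
  Crest.Agent.R032.core_final
    (Crest.Agent.R032.core_of (Crest.Agent.R032.real_of_gadget Crest.Agent.R032.gadget)
      Crest.Agent.R032.gSide)

end Crest.Agent.S0042
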