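import Crest.Statements.S0071
import Crest.Agent.R052.Chain

set_option autoImplicit false
open Crest Crest.CombinatoricsR

namespace Crest.Agent.S0071

section helpers

set_option linter.unusedSectionVars false

open Finset Crest.Agent.R052

variable {α : Type} [Fintype α] [DecidableEq α]

/-- an ordering of `H` by decreasing weight, given by its prefixes, with Abel summation -/
theorem exists_prefix (w : α → ℝ) (hw : ∀ x, 0 ≤ w x) (H : Finset α) :
    ∃ pre : ℕ → Finset α, (∀ j, pre j ⊆ H) ∧ Monotone pre ∧ (∀ j, (pre j).card ≤ j) ∧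
      pre H.card = H ∧
      ∀ (p : α → Prop) [DecidablePred p] (η : ℝ),
        (∀ j, (((pre j).filter p).card : ℝ) ≤ η * (j : ℝ)) →
        ∀ m : ℝ, (∀ x ∈ H, m ≤ w x) → 0 ≤ m →
          m * (η * (H.card : ℝ) - ((H.filter p).card : ℝ)) ≤
            ∑ x ∈ H, (η - if p x then 1 else 0) * w x := by
  induction H using Finset.induction_on_min_value w with
  | empty =>
    refine ⟨fun _ => ∅, by simp, fun _ _ _ => le_rfl, by simp, rfl, ?_⟩
    intro p _ η _ m _ _
    simp
  | insert a s ha hmin ih =>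
    obtain ⟨pre, h1, h2, h3, h4, h5⟩ := ih
    refine ⟨fun j => if j ≤ s.card then pre j else insert a s, ?_, ?_, ?_, ?_, ?_⟩
    · intro j
      dsimp only
      split_ifs
      · exact (h1 j).trans (subset_insert a s)
      · exact subset_rfl
    · intro i j hij
      dsimp only
      split_ifs with hi hj
      · exact h2 hij
      · exact (h1 i).trans (subset_insert a s)
      · omega
      · exact subset_rfl
    · intro j
      dsimp only
      split_ifs with hj
      · exact h3 j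
      · rw [card_insert_of_notMem ha]; omega
    · dsimp only
      rw [if_neg]
      rw [card_insert_of_notMem ha]; omega
    · intro p _ η hη m hm hm0
      have hη0 : 0 ≤ η := by
        have := hη 1
        have h0 : (0 : ℝ) ≤ (((if 1 ≤ s.card then pre 1 else insert a s).filter p).card : ℝ) :=
          Nat.cast_nonneg _
        have h6 := h0.trans this
        simpa using h6
      have hpre : ∀ j, (((pre j).filter p).card : ℝ) ≤ η * (j : ℝ) := by
        intro j
        rcases le_or_gt j s.card with hj | hj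
        · have := hη j
          simpa only [if_pos hj] using this
        · have h6 : ((pre j).filter p).card ≤ ((pre s.card).filter p).card := by
            refine card_le_card (filter_subset_filter _ ?_)
            rw [h4]; exact h1 j
          have h7 := hη s.card
          simp only [le_refl, if_true] at h7
          have h8 : (((pre j).filter p).card : ℝ) ≤ (((pre s.card).filter p).card : ℝ) := by
            exact_mod_cast h6
          have h9 : (s.card : ℝ) ≤ j := by exact_mod_cast hj.le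
          calc _ ≤ _ := h8
            _ ≤ η * s.card := h7
            _ ≤ η * j := mul_le_mul_of_nonneg_left h9 hη0
      have hs := h5 p η hpre (w a) hmin (hw a)
      have hD := hη (s.card + 1)
      have hn : ¬ s.card + 1 ≤ s.card := by omega
      simp only [if_neg hn] at hD
      rw [sum_insert ha, card_insert_of_notMem ha]
      have hc : ((insert a s).filter p).card = (s.filter p).card + if p a then 1 else 0 := by
        rw [filter_insert]
        split_ifs with hpa
        · rw [card_insert_of_notMem (fun h => ha (mem_filter.1 h).1)]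
        · rfl
      rw [hc] at hD ⊢
      push_cast at hD ⊢
      have hma : m ≤ w a := hm a (mem_insert_self a s)
      set D : ℝ := η * (s.card + 1) - ((s.filter p).card + if p a then 1 else 0) with hDdef
      have hD0 : 0 ≤ D := by rw [hDdef]; linarith
      have h10 : w a * D = w a * (η * s.card - (s.filter p).card) +
          (η - if p a then 1 else 0) * w a := by rw [hDdef]; ring
      have h11 : m * D ≤ w a * D := mul_le_mul_of_nonneg_right hma hD0
      linarith

/-- the weight of a point -/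
noncomputable def wH (g : Finset α → ℝ) (H : Finset α) (x : α) : ℝ :=
  ∑ S ∈ H.powerset, if x ∈ S then g S / (S.card : ℝ) else 0

theorem wH_nonneg {g : Finset α → ℝ} (hg : ∀ S, 0 ≤ g S) (H : Finset α) (x : α) :
    0 ≤ wH g H x := by
  refine sum_nonneg fun S _ => ?_
  split_ifs
  · exact div_nonneg (hg S) (Nat.cast_nonneg _)
  · exact le_rfl

theorem sum_wH (g : Finset α → ℝ) (H : Finset α) (c : α → ℝ) :
    ∑ x ∈ H, c x * wH g H x = ∑ S ∈ H.powerset, g S / (S.card : ℝ) * ∑ x ∈ S, c x := by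
  unfold wH
  simp_rw [mul_sum]
  rw [sum_comm]
  refine sum_congr rfl fun S hS => ?_
  have hSH := mem_powerset.1 hS
  rw [← sum_subset hSH (f := fun x => c x * if x ∈ S then g S / (S.card : ℝ) else 0)]
  · refine sum_congr rfl fun x hx => ?_
    rw [if_pos hx]; ring
  · intro x _ hx
    rw [if_neg hx, mul_zero]

theorem sum_quarter_le (n : ℕ) : ∑ l ∈ range n, (1 / 4 : ℝ) ^ (l + 1) ≤ 1 / 3 := by
  have : ∀ n : ℕ, ∑ l ∈ range n, (1 / 4 : ℝ) ^ (l + 1) = 1 / 3 - 1 / 3 * (1 / 4) ^ n := by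
    intro n
    induction n with
    | zero => simp
    | succ n ih => rw [sum_range_succ, ih]; ring
  rw [this]
  have : (0 : ℝ) < (1 / 4) ^ n := by positivity
  linarith

/-- **Lemma B.** -/
theorem lemmaB {F : Finset (Finset α)} {g : Finset α → ℝ} (hg : ∀ S, 0 ≤ g S)
    (hg0 : g ∅ ≤ 1 / 2) (hcov : ∀ H ∈ F, 1 ≤ ∑ S ∈ H.powerset, g S)
    {pre : Finset α → ℕ → Finset α}
    (hpre : ∀ H, ∀ (p : α → Prop) [DecidablePred p] (η : ℝ),
        (∀ j, (((pre H j).filter p).card : ℝ) ≤ η * (j : ℝ)) →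
        ∀ m : ℝ, (∀ x ∈ H, m ≤ wH g H x) → 0 ≤ m →
          m * (η * (H.card : ℝ) - ((H.filter p).card : ℝ)) ≤
            ∑ x ∈ H, (η - if p x then 1 else 0) * wH g H x)
    {k : ℕ} {τ : α → ℕ} (hτ : ∀ x, τ x ≤ k) (hgood : Good F pre k τ) :
    1 / 3 ≤ ∑ S ∈ univ.filter (fun S : Finset α => S.Nonempty ∧ ∑ x ∈ S, τ x ≤ S.card), g S := by
  obtain ⟨H, hH, hHg⟩ := hgood
  have h1 : ∀ i ∈ range k, ∑ x ∈ H, (if i < τ x then wH g H x else 0) ≤
      (1 / 4 : ℝ) ^ (i + 1) * ∑ x ∈ H, wH g H x := by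
    intro i hi
    have h2 := hpre H (fun x => i < τ x) ((1 / 4 : ℝ) ^ (i + 1)) (fun j => ?_) 0
      (fun x _ => wH_nonneg hg H x) le_rfl
    · rw [zero_mul] at h2
      have h3 : ∑ x ∈ H, ((1 / 4 : ℝ) ^ (i + 1) - if i < τ x then 1 else 0) * wH g H x =
          (1 / 4 : ℝ) ^ (i + 1) * ∑ x ∈ H, wH g H x -
            ∑ x ∈ H, (if i < τ x then wH g H x else 0) := by
        rw [mul_sum, ← sum_sub_distrib]
        refine sum_congr rfl fun x _ => ?_
        split_ifs <;> ring
      rw [h3] at h2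
      linarith
    · have h2 := hHg i (mem_range.1 hi) j
      have h3 : (4 : ℝ) ^ (i + 1) * (((pre H j).filter fun x => i < τ x).card : ℝ) ≤ j := by
        exact_mod_cast h2
      rw [one_div_pow, one_div, ← div_eq_inv_mul, le_div_iff₀ (by positivity), mul_comm]
      exact h3
  have h2 := sum_le_sum h1
  rw [← sum_mul, sum_comm] at h2
  have h3 : ∀ x ∈ H, ∑ i ∈ range k, (if i < τ x then wH g H x else 0) = (τ x : ℝ) * wH g H x := by
    intro x _
    rw [← sum_filter, sum_const, nsmul_eq_mul]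
    congr 2
    have : (range k).filter (fun i => i < τ x) = range (τ x) := by
      ext i
      simp only [mem_filter, mem_range]
      have := hτ x
      constructor
      · exact fun h => h.2
      · exact fun h => ⟨by omega, h⟩
    rw [this, card_range]
  rw [sum_congr rfl h3, sum_wH g H (fun x => (τ x : ℝ))] at h2
  have hW : ∑ x ∈ H, wH g H x = ∑ S ∈ H.powerset.filter (fun S => S.Nonempty), g S := by
    have := sum_wH g H (fun _ => 1)
    simp only [one_mul, sum_const, nsmul_eq_mul, mul_one] at this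
    rw [this, sum_filter]
    refine sum_congr rfl fun S _ => ?_
    split_ifs with hS
    · have : (S.card : ℝ) ≠ 0 := by exact_mod_cast hS.card_pos.ne'
      field_simp
    · rw [not_nonempty_iff_eq_empty] at hS
      subst hS
      simp
  rw [hW] at h2
  set M : ℝ := ∑ S ∈ H.powerset.filter (fun S => S.Nonempty), g S with hM
  have hM0 : 0 ≤ M := sum_nonneg fun S _ => hg S
  have hMhalf : 1 / 2 ≤ M := by
    have h4 := hcov H hH
    have h5 := sum_filter_add_sum_filter_not H.powerset (fun S => S.Nonempty) g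
    have h6 : H.powerset.filter (fun S => ¬ S.Nonempty) = {∅} := by
      ext S
      simp only [mem_filter, mem_powerset, not_nonempty_iff_eq_empty, mem_singleton]
      constructor
      · exact fun h => h.2
      · rintro rfl; exact ⟨empty_subset _, rfl⟩
    rw [h6, sum_singleton] at h5
    linarith
  -- bad sets
  have hbad : ∑ S ∈ (H.powerset.filter (fun S => S.Nonempty)).filter
      (fun S => ¬ ∑ x ∈ S, τ x ≤ S.card), g S ≤
      ∑ S ∈ H.powerset, g S / (S.card : ℝ) * ∑ x ∈ S, (τ x : ℝ) := by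
    have h4 : ∀ S ∈ (H.powerset.filter (fun S => S.Nonempty)).filter
      (fun S => ¬ ∑ x ∈ S, τ x ≤ S.card), g S ≤ g S / (S.card : ℝ) * ∑ x ∈ S, (τ x : ℝ) := by
      intro S hS
      rw [mem_filter, mem_filter] at hS
      have h5 : (0 : ℝ) < S.card := by exact_mod_cast hS.1.2.card_pos
      have h6 : (S.card : ℝ) ≤ ∑ x ∈ S, (τ x : ℝ) := by exact_mod_cast (not_le.1 hS.2).le
      rw [div_mul_eq_mul_div, le_div_iff₀ h5]
      exact mul_le_mul_of_nonneg_left h6 (hg S)
    refine (sum_le_sum h4).trans ?_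
    refine sum_le_sum_of_subset_of_nonneg ?_ fun S _ _ => ?_
    · exact (filter_subset _ _).trans (filter_subset _ _)
    · exact mul_nonneg (div_nonneg (hg S) (Nat.cast_nonneg _))
        (sum_nonneg fun _ _ => Nat.cast_nonneg _)
  have h4 := sum_filter_add_sum_filter_not (H.powerset.filter (fun S => S.Nonempty))
    (fun S => ∑ x ∈ S, τ x ≤ S.card) g
  have h5 : ∑ S ∈ (H.powerset.filter (fun S => S.Nonempty)).filter
      (fun S => ∑ x ∈ S, τ x ≤ S.card), g S ≤
      ∑ S ∈ univ.filter (fun S : Finset α => S.Nonempty ∧ ∑ x ∈ S, τ x ≤ S.card), g S := by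
    refine sum_le_sum_of_subset_of_nonneg ?_ fun S _ _ => hg S
    intro S hS
    rw [mem_filter, mem_filter] at hS
    exact mem_filter.2 ⟨mem_univ _, hS.1.2, hS.2⟩
  have h6 : (∑ i ∈ range k, (1 / 4 : ℝ) ^ (i + 1)) * M ≤ 1 / 3 * M :=
    mul_le_mul_of_nonneg_right (sum_quarter_le k) hM0
  linarith

/-- **Lemma C.** -/
theorem lemmaC {k : ℕ} {ρ : ℕ → ℝ} (hρ0 : ∀ l, 0 ≤ ρ l)
    (hρ1 : ∑ l ∈ range (k + 1), ρ l = 1) (c : ℝ)
    (hc : ∑ l ∈ range (k + 1), ρ l * (1 / 32) ^ l ≤ c) (S : Finset α) :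
    ∑ τ ∈ (Fintype.piFinset fun _ : α => range (k + 1)).filter
      (fun τ => ∑ x ∈ S, τ x ≤ S.card), ∏ x, ρ (τ x) ≤ (32 * c) ^ S.card := by
  have h1 : ∀ τ ∈ (Fintype.piFinset fun _ : α => range (k + 1)).filter
      (fun τ => ∑ x ∈ S, τ x ≤ S.card), ∏ x, ρ (τ x) ≤
      32 ^ S.card * ∏ x, (ρ (τ x) * if x ∈ S then (1 / 32 : ℝ) ^ τ x else 1) := by
    intro τ hτ
    have h2 := (mem_filter.1 hτ).2
    rw [prod_mul_distrib, prod_ite_mem, univ_inter, prod_pow_eq_pow_sum]
    have h3 : (1 : ℝ) ≤ 32 ^ S.card * (1 / 32) ^ ∑ x ∈ S, τ x := by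
      rw [one_div_pow, mul_one_div, le_div_iff₀ (by positivity), one_mul]
      exact pow_le_pow_right₀ (by norm_num) h2
    have h4 : 0 ≤ ∏ x, ρ (τ x) := prod_nonneg fun x _ => hρ0 _
    calc ∏ x, ρ (τ x) = (∏ x, ρ (τ x)) * 1 := (mul_one _).symm
      _ ≤ (∏ x, ρ (τ x)) * (32 ^ S.card * (1 / 32) ^ ∑ x ∈ S, τ x) :=
        mul_le_mul_of_nonneg_left h3 h4
      _ = _ := by ring
  refine (sum_le_sum h1).trans ?_
  rw [← mul_sum]
  have h2 : ∑ τ ∈ (Fintype.piFinset fun _ : α => range (k + 1)).filter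
      (fun τ => ∑ x ∈ S, τ x ≤ S.card),
      ∏ x, (ρ (τ x) * if x ∈ S then (1 / 32 : ℝ) ^ τ x else 1) ≤ c ^ S.card := by
    have h3 : ∑ τ ∈ (Fintype.piFinset fun _ : α => range (k + 1)).filter
      (fun τ => ∑ x ∈ S, τ x ≤ S.card),
      ∏ x, (ρ (τ x) * if x ∈ S then (1 / 32 : ℝ) ^ τ x else 1) ≤
      ∑ τ ∈ (Fintype.piFinset fun _ : α => range (k + 1)),
      ∏ x, (ρ (τ x) * if x ∈ S then (1 / 32 : ℝ) ^ τ x else 1) := by
      refine sum_le_sum_of_subset_of_nonneg (filter_subset _ _) fun τ _ _ => ?_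
      refine prod_nonneg fun x _ => mul_nonneg (hρ0 _) ?_
      split_ifs
      · positivity
      · exact zero_le_one
    refine h3.trans ?_
    have h4 := prod_univ_sum (fun _ : α => range (k + 1))
      (fun (x : α) l => ρ l * if x ∈ S then (1 / 32 : ℝ) ^ l else 1)
    rw [← h4]
    have h5 : ∀ x : α, ∑ l ∈ range (k + 1), (ρ l * if x ∈ S then (1 / 32 : ℝ) ^ l else 1) =
        if x ∈ S then ∑ l ∈ range (k + 1), ρ l * (1 / 32) ^ l else 1 := by
      intro x
      split_ifs
      · rfl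
      · simp only [mul_one]; exact hρ1
    rw [prod_congr rfl fun x _ => h5 x, prod_ite_mem, univ_inter, prod_const]
    refine pow_le_pow_left₀ (sum_nonneg fun l _ => mul_nonneg (hρ0 l) (by positivity)) hc _
  calc (32 : ℝ) ^ S.card * _ ≤ 32 ^ S.card * c ^ S.card :=
        mul_le_mul_of_nonneg_left h2 (by positivity)
    _ = _ := (mul_pow _ _ _).symm

theorem sum_C (k : ℕ) : ∑ i ∈ range k, Cc i = 192 / 15 * (16 ^ k - 1) := by
  induction k with
  | zero => simp
  | succ n ih => rw [sum_range_succ, ih]; unfold Cc; ring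

theorem sum_two_le (n : ℕ) : ∑ l ∈ range n, (1 / 2 : ℝ) ^ l ≤ 2 := by
  have : ∀ n : ℕ, ∑ l ∈ range n, (1 / 2 : ℝ) ^ l = 2 - 2 * (1 / 2) ^ n := by
    intro n
    induction n with
    | zero => simp
    | succ n ih => rw [sum_range_succ, ih]; ring
  rw [this]
  have : (0 : ℝ) < (1 / 2) ^ n := by positivity
  linarith

/-- the level densities -/
theorem exists_levels (q : ℝ) (hq : 0 < q) : ∃ (k : ℕ) (ρ : ℕ → ℝ),
    (∀ l < k, ρ l = Cc l * q) ∧ (∀ l, 0 ≤ ρ l) ∧ ∑ l ∈ range (k + 1), ρ l = 1 ∧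
    ∑ l ∈ range (k + 1), ρ l * (1 / 32) ^ l ≤ 768 * q := by
  classical
  have hex : ∃ k : ℕ, 1 < (∑ i ∈ range (k + 1), Cc i) * q := by
    obtain ⟨n, hn⟩ := pow_unbounded_of_one_lt (1 / q) (by norm_num : (1 : ℝ) < 16)
    refine ⟨n, ?_⟩
    rw [div_lt_iff₀ hq] at hn
    have h1 : (16 : ℝ) ^ n ≤ ∑ i ∈ range (n + 1), Cc i := by
      have h2 : Cc n ≤ ∑ i ∈ range (n + 1), Cc i :=
        single_le_sum (fun i _ => (Cc_pos i).le) (mem_range.2 (Nat.lt_succ_self n))
      refine le_trans ?_ h2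
      unfold Cc
      have : (0 : ℝ) < 16 ^ n := by positivity
      linarith
    exact lt_of_lt_of_le hn (mul_le_mul_of_nonneg_right h1 hq.le)
  set k := Nat.find hex with hk
  have hk1 : 1 < (∑ i ∈ range (k + 1), Cc i) * q := Nat.find_spec hex
  have hk2 : (∑ i ∈ range k, Cc i) * q ≤ 1 := by
    rcases Nat.eq_zero_or_pos k with h0 | h0
    · rw [h0]; simp
    · have h1 : k - 1 < k := by omega
      have h2 := Nat.find_min hex h1
      have h3 : k - 1 + 1 = k := by omega
      rw [h3] at h2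
      exact not_lt.1 h2
  refine ⟨k, fun l => if l < k then Cc l * q else if l = k then 1 - (∑ i ∈ range k, Cc i) * q else 0,
    ?_, ?_, ?_, ?_⟩
  · intro l hl
    simp [hl]
  · intro l
    dsimp only
    split_ifs
    · exact mul_nonneg (Cc_pos l).le hq.le
    · linarith
    · exact le_rfl
  · rw [sum_range_succ, if_neg (lt_irrefl k), if_pos rfl]
    have : ∑ l ∈ range k, (if l < k then Cc l * q else
        if l = k then 1 - (∑ i ∈ range k, Cc i) * q else 0) = (∑ i ∈ range k, Cc i) * q := by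
      rw [sum_mul]
      refine sum_congr rfl fun l hl => ?_
      rw [if_pos (mem_range.1 hl)]
    rw [this]; ring
  · rw [sum_range_succ]
    dsimp only
    rw [if_neg (lt_irrefl k), if_pos rfl]
    have h1 : ∑ l ∈ range k, (if l < k then Cc l * q else
        if l = k then 1 - (∑ i ∈ range k, Cc i) * q else 0) * (1 / 32) ^ l =
        192 * q * ∑ l ∈ range k, (1 / 2 : ℝ) ^ l := by
      rw [mul_sum]
      refine sum_congr rfl fun l hl => ?_
      rw [if_pos (mem_range.1 hl)]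
      unfold Cc
      have : (16 : ℝ) ^ l * (1 / 32) ^ l = (1 / 2) ^ l := by rw [← mul_pow]; norm_num
      rw [← this]; ring
    rw [h1]
    have h2 := sum_two_le k
    have h3 : (0 : ℝ) < (1 / 32) ^ k := by positivity
    have h4 : (1 / 32 : ℝ) ^ k ≤ (1 / 16) ^ k := pow_le_pow_left₀ (by norm_num) (by norm_num) k
    have h5 : (1 - (∑ i ∈ range k, Cc i) * q) * (1 / 32) ^ k ≤ (1 / 16) ^ k := by
      have h6 : 1 - (∑ i ∈ range k, Cc i) * q ≤ 1 := by
        have : 0 ≤ (∑ i ∈ range k, Cc i) * q :=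
          mul_nonneg (sum_nonneg fun i _ => (Cc_pos i).le) hq.le
        linarith
      nlinarith
    have h6 : (1 / 16 : ℝ) ^ k ≤ 384 * q := by
      rw [sum_C] at hk1
      have h7 : (0 : ℝ) < 16 ^ k := by positivity
      rw [one_div_pow, div_le_iff₀ h7]
      have h8 : (16 : ℝ) ^ (k + 1) = 16 * 16 ^ k := by rw [pow_succ]; ring
      rw [h8] at hk1
      nlinarith
    nlinarith

set_option linter.unusedVariables false in
/-- the main argument -/
theorem main (β : Type) [Fintype β]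
    [DecidableEq β] [Nonempty β] (F : Finset (Finset β)) (hne : F.Nonempty) (hempty : ∅ ∉ F)
    (hup : ∀ A ∈ F, ∀ B : Finset β, A ⊆ B → B ∈ F) (r : ℝ) (hr0 : 0 ≤ r) (hr1 : r ≤ 1)
    (g : Finset β → ℝ) (hg : ∀ S : Finset β, 0 ≤ g S ∧ g S ≤ 1)
    (hcov : ∀ H ∈ F, 1 ≤ ∑ S ∈ H.powerset, g S)
    (hcost : ∑ S : Finset β, g S * r ^ S.card ≤ 1 / 2) :
    ∃ G : Finset (Finset β), (∀ H ∈ F, ∃ S ∈ G, S ⊆ H) ∧
      ∑ S ∈ G, (r / (25 * 512 ^ 4)) ^ S.card ≤ 1 / 2 := by
  classical
  set q : ℝ := r / (25 * 512 ^ 4) with hqdef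
  rcases eq_or_lt_of_le hr0 with hr | hr
  · -- `r = 0`
    refine ⟨F, fun H hH => ⟨H, hH, subset_rfl⟩, ?_⟩
    have hq0 : q = 0 := by rw [hqdef, ← hr, zero_div]
    rw [hq0]
    have : ∑ S ∈ F, (0 : ℝ) ^ S.card = 0 := by
      refine sum_eq_zero fun S hS => ?_
      refine zero_pow ?_
      rw [Ne, card_eq_zero]
      rintro rfl
      exact hempty hS
    rw [this]; norm_num
  by_contra hnot
  have hnot' : ∀ G : Finset (Finset β), (∀ H ∈ F, ∃ S ∈ G, S ⊆ H) →
      1 / 2 < ∑ S ∈ G, q ^ S.card := by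
    intro G hG
    by_contra h
    exact hnot ⟨G, hG, not_lt.1 h⟩
  have hq : 0 < q := by rw [hqdef]; positivity
  have hg' : ∀ S, 0 ≤ g S := fun S => (hg S).1
  obtain ⟨k, ρ, hρ, hρ0, hρ1, hρ2⟩ := exists_levels q hq
  choose pre hp1 hp2 hp3 hp4 hp5 using fun H : Finset β =>
    exists_prefix (wH g H) (wH_nonneg hg' H) H
  have hchain := chain F pre hp1 hp2 hp3 q hq k ρ hρ hρ0 hρ1 hnot'
  have hg0 : g ∅ ≤ 1 / 2 := by
    have h1 : g ∅ * r ^ (∅ : Finset β).card ≤ ∑ S : Finset β, g S * r ^ S.card :=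
      single_le_sum (f := fun S : Finset β => g S * r ^ S.card)
        (fun S _ => mul_nonneg (hg' S) (pow_nonneg hr0 _)) (mem_univ ∅)
    rw [card_empty, pow_zero, mul_one] at h1
    linarith
  set Ω : Finset (β → ℕ) := Fintype.piFinset fun _ : β => range (k + 1) with hΩ
  have hΩle : ∀ τ ∈ Ω, ∀ x, τ x ≤ k := by
    intro τ hτ x
    rw [hΩ, Fintype.mem_piFinset] at hτ
    exact Nat.le_of_lt_succ (mem_range.1 (hτ x))
  have hP0 : ∀ τ : β → ℕ, 0 ≤ ∏ x, ρ (τ x) := fun τ => prod_nonneg fun x _ => hρ0 _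
  have h1 : ∑ τ ∈ Ω.filter (Good F pre k), ∏ x, ρ (τ x) ≤
      ∑ τ ∈ Ω, (∏ x, ρ (τ x)) * (3 * ∑ S ∈ univ.filter
        (fun S : Finset β => S.Nonempty ∧ ∑ x ∈ S, τ x ≤ S.card), g S) := by
    have h2 : ∑ τ ∈ Ω.filter (Good F pre k), ∏ x, ρ (τ x) ≤
        ∑ τ ∈ Ω.filter (Good F pre k), (∏ x, ρ (τ x)) * (3 * ∑ S ∈ univ.filter
        (fun S : Finset β => S.Nonempty ∧ ∑ x ∈ S, τ x ≤ S.card), g S) := by
      refine sum_le_sum fun τ hτ => ?_
      rw [mem_filter] at hτ
      have h3 := lemmaB hg' hg0 hcov (fun H p _ η => hp5 H p η) (hΩle τ hτ.1) hτ.2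
      have h4 : 1 ≤ 3 * ∑ S ∈ univ.filter
        (fun S : Finset β => S.Nonempty ∧ ∑ x ∈ S, τ x ≤ S.card), g S := by linarith
      have := mul_le_mul_of_nonneg_left h4 (hP0 τ)
      linarith
    refine h2.trans ?_
    refine sum_le_sum_of_subset_of_nonneg (filter_subset _ _) fun τ _ _ => ?_
    exact mul_nonneg (hP0 τ) (mul_nonneg (by norm_num) (sum_nonneg fun S _ => hg' S))
  have h2 : ∑ τ ∈ Ω, (∏ x, ρ (τ x)) * (3 * ∑ S ∈ univ.filter
        (fun S : Finset β => S.Nonempty ∧ ∑ x ∈ S, τ x ≤ S.card), g S) =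
      3 * ∑ S ∈ univ.filter (fun S : Finset β => S.Nonempty),
        g S * ∑ τ ∈ Ω.filter (fun τ => ∑ x ∈ S, τ x ≤ S.card), ∏ x, ρ (τ x) := by
    have h3 : ∀ τ ∈ Ω, (∏ x, ρ (τ x)) * (3 * ∑ S ∈ univ.filter
        (fun S : Finset β => S.Nonempty ∧ ∑ x ∈ S, τ x ≤ S.card), g S) =
        3 * ∑ S ∈ univ.filter (fun S : Finset β => S.Nonempty),
          if ∑ x ∈ S, τ x ≤ S.card then g S * ∏ x, ρ (τ x) else 0 := by
      intro τ _
      rw [← filter_filter, sum_filter, mul_left_comm, mul_sum]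
      congr 1
      refine sum_congr rfl fun S _ => ?_
      split_ifs <;> ring
    rw [sum_congr rfl h3, ← mul_sum, sum_comm]
    congr 1
    refine sum_congr rfl fun S _ => ?_
    rw [mul_sum, sum_filter]
  rw [h2] at h1
  have hκ : ∀ S ∈ univ.filter (fun S : Finset β => S.Nonempty),
      g S * ∑ τ ∈ Ω.filter (fun τ => ∑ x ∈ S, τ x ≤ S.card), ∏ x, ρ (τ x) ≤
      (24576 / (25 * 512 ^ 4)) * (g S * r ^ S.card) := by
    intro S hS
    have h3 := lemmaC hρ0 hρ1 (768 * q) hρ2 S
    have h4 : (32 * (768 * q)) ^ S.card ≤ (24576 / (25 * 512 ^ 4)) * r ^ S.card := by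
      have h5 : 32 * (768 * q) = (24576 / (25 * 512 ^ 4)) * r := by rw [hqdef]; ring
      rw [h5, mul_pow]
      refine mul_le_mul_of_nonneg_right ?_ (pow_nonneg hr0 _)
      have h6 : 1 ≤ S.card := (mem_filter.1 hS).2.card_pos
      refine (pow_le_pow_of_le_one (by norm_num) (by norm_num) h6).trans ?_
      rw [pow_one]
    calc _ ≤ g S * ((24576 / (25 * 512 ^ 4)) * r ^ S.card) :=
          mul_le_mul_of_nonneg_left (h3.trans h4) (hg' S)
      _ = _ := by ring
  have h3 := sum_le_sum hκ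
  rw [← mul_sum] at h3
  have h4 : ∑ S ∈ univ.filter (fun S : Finset β => S.Nonempty), g S * r ^ S.card ≤
      ∑ S : Finset β, g S * r ^ S.card :=
    sum_le_sum_of_subset_of_nonneg (filter_subset _ _)
      fun S _ _ => mul_nonneg (hg' S) (pow_nonneg hr0 _)
  have h5 : 1 / 4 ≤ 3 * ((24576 / (25 * 512 ^ 4)) * (1 / 2 : ℝ)) := by
    have h6 : ∑ τ ∈ Ω.filter (Good F pre k), ∏ x, ρ (τ x) ≤
        3 * ((24576 / (25 * 512 ^ 4)) * (1 / 2 : ℝ)) := by
      refine h1.trans (mul_le_mul_of_nonneg_left ?_ (by norm_num))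
      refine h3.trans (mul_le_mul_of_nonneg_left (h4.trans hcost) (by norm_num))
    exact hchain.trans h6
  norm_num at h5


end helpers

/-- Let F be a non-empty family of subsets of a finite non-empty type, closed upwards and not containing ∅, and let r ∈ [0, 1]. If F has a fractional cover of cost at most 1/2 at r (weights g(S) ∈ [0, 1] with Σ_{S ⊆ H} g(S) ≥ 1 for all H ∈ F and Σ_S g(S) · r^(card S) ≤ 1/2), then F has an integral cover of cost at most 1/2 at r / (25 · 512^4): a family G such that every member of F contains a member of G and Σ_{S ∈ G} (r / (25 · 512^4))^(card S) ≤ 1/2. -/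
theorem result (α : Type) [Fintype α]
    [DecidableEq α] [Nonempty α] (F : Finset (Finset α)) (hne : F.Nonempty) (hempty : ∅ ∉ F)
    (hup : ∀ A ∈ F, ∀ B : Finset α, A ⊆ B → B ∈ F) (r : ℝ) (hr0 : 0 ≤ r) (hr1 : r ≤ 1)
    (g : Finset α → ℝ) (hg : ∀ S : Finset α, 0 ≤ g S ∧ g S ≤ 1)
    (hcov : ∀ H ∈ F, 1 ≤ ∑ S ∈ H.powerset, g S)
    (hcost : ∑ S : Finset α, g S * r ^ S.card ≤ 1 / 2) :
    ∃ G : Finset (Finset α), (∀ H ∈ F, ∃ S ∈ G, S ⊆ H) ∧
      ∑ S ∈ G, (r / (25 * 512 ^ 4)) ^ S.card ≤ 1 / 2 := by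
  exact main α F hne hempty hup r hr0 hr1 g hg hcov hcost

end Crest.Agent.S0071
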