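import Crest.Statements.S0091
import Crest.Agent.R68.Main1
import Crest.Agent.R68.LOut
import Crest.Agent.R68.X2Fin
import Crest.Agent.R68.AOutHolds
import Crest.Agent.R68.ColdOutAll
import Crest.Agent.R68.NOut
import Crest.Agent.R68.DOutHolds
import Crest.Agent.R68.WOutB
import Crest.Agent.R68.WGlue3
import Crest.Agent.R68.TruncOut
import Crest.Agent.R68.ColdOut
import Crest.Agent.R68.CausOut
import Crest.Agent.R68.ColdMildOut
import Crest.Agent.R68.IntOut
import Crest.Agent.R68.ASize

set_option autoImplicit false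
open MeasureTheory
open scoped ENNReal
open Crest.AnalysisR.VecCalc3 Crest.AnalysisR.PDE.Boltzmann
open Crest Crest.AnalysisR Crest.AnalysisR.PDE Crest.AnalysisR.PDE.Boltzmann

namespace Crest.Agent.S0091

/-- Nonuniqueness for the hard-sphere Boltzmann equation on ℝ³/ℤ³: a nonnegative periodic datum with bounded velocities and finite mass, energy, entropy admits two global solutions differing on a positive-measure set: nonnegative weak solutions (smooth periodic tests) with local conservation of mass, momentum, energy, conserved total momentum, ∫‖v‖²F(t) ≤ ∫‖v‖²F₀, H_M(F(t)) + ∫₀ᵗ D(F) ≤ H_M(F₀), locally bounded mass, energy, entropy, strong L¹ continuity, weighted-integrable gain and loss. -/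
theorem result :
    ∃ R : ℝ, ∃ F₀ : R3 → R3 → ℝ, IsAdmissibleDatum F₀ R ∧
      ∃ F₁ F₂ : ℝ → R3 → R3 → ℝ, IsGlobalSolution F₁ F₀ ∧ IsGlobalSolution F₂ F₀ ∧
        0 < volume {p : ℝ × R3 × R3 | p ∈ region ∧ F₁ p.1 p.2.1 p.2.2 ≠ F₂ p.1 p.2.1 p.2.2} := by
  have h10 : (1 : ℝ) ≤ 10 := by norm_num
  have hX2 : Crest.Agent.R68.L.X2Out' 10 (1 / 25) (1 / 25) :=
    Crest.Agent.R68.X2.X2Out'_holds h10 (by norm_num) le_rfl
  have hM : Crest.Agent.R68.WP.MildOut 10 :=
    Crest.Agent.R68.WP.MildOut_of h10 (Crest.Agent.R68.WP.CausOut_holds 10 h10)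
      (Crest.Agent.R68.WP.ColdMildOut_holds 10 h10) (Crest.Agent.R68.WP.SizeOut_holds h10)
      (Crest.Agent.R68.WP.IntOut_holds h10)
  have hW : Crest.Agent.R68.Main0.WOut 10 :=
    Crest.Agent.R68.WP.WOut_of' (by norm_num) (Crest.Agent.R68.WP.TruncOut_holds h10)
      (Crest.Agent.R68.WP.ColdOut_holds h10) hM (Crest.Agent.R68.WP.CausOut_holds 10 h10)
  exact Crest.Agent.R68.Main0.main0 (by norm_num) (Crest.Agent.R68.L.LOut_of_X2 h10 hX2)
    Crest.Agent.R68.A.AOut_holds Crest.Agent.R68.KC.CKOut_holds Crest.Agent.R68.N.NOut_holds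
    hW (Crest.Agent.R68.D.DOut_holds 10 h10)

end Crest.Agent.S0091
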