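import Crest.Statements.S0096
import Crest.Agent.R072.Transfer
import Crest.Agent.R072.Density

set_option autoImplicit false
open Crest Crest.AnalysisR

namespace Crest.Agent.S0096

/-- There is an absolute constant C such that for every integer n ≥ 1 and all complex F, G on ℝ × ℝ in L³ (Lebesgue measure), the disjoint-annulus count annulusCount n F G (pointwise supremum of ∑_j ‖B_{ε_j,R_j}(F,G)‖ over at most n rational annuli 0 < ε_j < R_j with pairwise disjoint open intervals, B the truncated triangular Hilbert transform) has L^{3/2} quasi-norm (∫ S^{3/2})^{2/3} at most C √n log(2+n) ‖F‖₃ ‖G‖₃. -/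
theorem result :
    ∃ C : ℝ, ∀ n : ℕ, 1 ≤ n → ∀ F G : ℝ × ℝ → ℂ,
      MeasureTheory.MemLp F 3 MeasureTheory.volume → MeasureTheory.MemLp G 3 MeasureTheory.volume →
        (∫⁻ z, Crest.AnalysisR.annulusCount n F G z ^ (3 / 2 : ℝ)) ^ (2 / 3 : ℝ) ≤
          ENNReal.ofReal (C * Real.sqrt n * Real.log (2 + n)) * MeasureTheory.eLpNorm F 3 MeasureTheory.volume *
            MeasureTheory.eLpNorm G 3 MeasureTheory.volume := by
  obtain ⟨C, hC0, hC⟩ := Crest.Agent.R072.Transfer.count_cc
  refine ⟨C, fun n hn F G hF hG => ?_⟩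
  refine (Crest.Agent.R072.Density.count_density (ENNReal.ofReal (C * Real.sqrt n)) n
    (fun F G h1 h2 h3 h4 => hC n hn F G h1 h2 h3 h4) F G hF hG).trans ?_
  have h1 : (1 : ℝ) ≤ Real.log (2 + n) := by
    rw [Real.le_log_iff_exp_le (by positivity)]
    have h2 : (1 : ℝ) ≤ n := by exact_mod_cast hn
    have h3 := Real.exp_one_lt_d9
    linarith
  have h2 : ENNReal.ofReal (C * Real.sqrt n) ≤
      ENNReal.ofReal (C * Real.sqrt n * Real.log (2 + n)) := by
    apply ENNReal.ofReal_le_ofReal
    exact le_mul_of_one_le_right (by positivity) h1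
  gcongr

end Crest.Agent.S0096
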