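import Crest.Statements.S0100
import Crest.Agent.R075.AnaMain
import Crest.Agent.R075.AnaProf
import Crest.Agent.R075.Final

set_option autoImplicit false
open Crest Crest.AnalysisR

namespace Crest.Agent.S0100

/-- For every real `ε` with `0 < ε < 1` there is a threshold `N₀` such that for every integer `N ≥ N₀` one can choose signs `c 0, …, c (N-1)` in `{-1, 1}` so that the polynomial `∑ k, c k * z ^ k` has modulus between `(1 - ε) * √N` and `(1 + ε) * √N` at every complex number `z` of modulus one. -/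
theorem result (ε : ℝ) (hε : 0 < ε)
    (hε₁ : ε < 1) :
    ∃ N₀ : ℕ, ∀ N ≥ N₀, ∃ c : Fin N → ℤˣ, ∀ z : ℂ, ‖z‖ = 1 →
      (1 - ε) * Real.sqrt N ≤ ‖∑ k : Fin N, ((c k : ℤ) : ℂ) * z ^ (k : ℕ)‖ ∧
        ‖∑ k : Fin N, ((c k : ℤ) : ℂ) * z ^ (k : ℕ)‖ ≤ (1 + ε) * Real.sqrt N := by
  refine Crest.Agent.R075.final_of_analysis ?_ ε hε hε₁
  intro e e2 he hee _
  obtain ⟨N0, hN0⟩ := Crest.Agent.R075.Ana.analysis Crest.Agent.R075.Ana.profile_exists
    (fun s mu nu a b hs _ => Crest.Agent.R075.quad_bound hs mu nu a b)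
    Crest.Agent.R075.tiling_exists (he.trans hee)
  refine ⟨N0, fun N hN => ?_⟩
  obtain ⟨c, hc1, hc2⟩ := hN0 N hN
  refine ⟨fun k => c k, fun k => hc1 k, fun z hz => ?_⟩
  have h := hc2 z hz
  rw [Finset.sum_range (fun k => ((c k : ℝ) : ℂ) * z ^ k)] at h
  rw [abs_le] at h
  constructor
  · linarith [h.1]
  · linarith [h.2]

end Crest.Agent.S0100
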