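import Crest.Statements.S0107
import Crest.Agent.R080.Main
import Crest.Agent.R080.Extend
import Crest.Agent.R080.CutOff
import Crest.Agent.R080.Korn
import Crest.Agent.R080.Polar
import Crest.Agent.R080.Bdry
import Crest.Agent.R080.Cauchy
import Crest.Agent.R080.SmallFM
import Crest.Agent.R080.Ksol
import Crest.Agent.R080.PlaneFM
import Crest.Agent.R080.FM
import Crest.Agent.R080.RIFull
import Crest.Agent.R080.Carleman
import Crest.Agent.R080.L2Solve
import Crest.Agent.R080.Interior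
import Crest.Agent.R080.Lame
import Crest.Agent.R080.Bilin
import Crest.Agent.R080.W0
import Crest.Agent.R080.W1Lift
import Crest.Agent.R080.W1
import Crest.Agent.R080.Orth
import Crest.Agent.R080.Gauge
import Crest.Agent.R080.BdryLoc
import Crest.Agent.R080.Relations
import Crest.Agent.R080.Final

set_option autoImplicit false
open MeasureTheory
open scoped ContDiff
open Crest.AnalysisR.VecCalc3 Crest.AnalysisR.PDE.Elasticity
open Crest Crest.AnalysisR Crest.AnalysisR.PDE Crest.AnalysisR.PDE.Elasticity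

namespace Crest.Agent.S0107

open Crest.Agent.R080 in
theorem relations : StmtRelations := by
  have hZ := t_Z
  have hBdry := t_Bdry hZ
  have hKorn := t_Korn hZ
  have hPlane : StmtPlaneFM := t_PlaneFM t_Cauchy t_SmallFM t_Ksol
  have hRI := t_RI t_Cauchy t_SmallFM hPlane
  have hRI3 := t_RI3D (t_L2Solve t_Carleman) t_Interior
  have hW0 : StmtW0 := t_W0 hRI3 hRI (t_Lame hZ) t_Bilin (t_Polar hKorn) hKorn
  have hW1 : StmtW1 := t_W1 hW0 hBdry hZ (W1.t_Lift hRI)
  have hOrth := t_Orth hW1 (t_FM t_SmallFM hPlane)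
  exact t_Relations (t_Gauge hOrth hRI) hBdry hZ t_BdryLoc

/-- Let Ω ⊆ ℝ³ be a bounded connected open set with smooth boundary and (λ₁, μ₁), (λ₂, μ₂) pairs of real functions, smooth on the closure of Ω, with μⱼ > 0 and 3λⱼ + 2μⱼ > 0 there. If the pairs have the same boundary data — for each continuously differentiable boundary displacement, the infimum of the elastic energy ∫_Ω λ(div u)² + 2μ‖e(u)‖² over continuously differentiable u with that boundary value agrees for the two pairs (so, equal displacement-to-traction maps) — then λ₁ = λ₂ and μ₁ = μ₂ on Ω. -/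
theorem result
    (Ω : Set R3) (hopen : IsOpen Ω) (hbdd : Bornology.IsBounded Ω) (hconn : IsConnected Ω)
    (hbdry : Crest.AnalysisR.PDE.HasSmoothBoundary Ω)
    (lam₁ mu₁ lam₂ mu₂ : R3 → ℝ)
    (hl₁ : ContDiffOn ℝ ∞ lam₁ (closure Ω)) (hm₁ : ContDiffOn ℝ ∞ mu₁ (closure Ω))
    (hl₂ : ContDiffOn ℝ ∞ lam₂ (closure Ω)) (hm₂ : ContDiffOn ℝ ∞ mu₂ (closure Ω))
    (hpos : ∀ x ∈ closure Ω, 0 < mu₁ x ∧ 0 < 3 * lam₁ x + 2 * mu₁ x ∧ 0 < mu₂ x ∧ 0 < 3 * lam₂ x + 2 * mu₂ x)
    (hdata : SameBoundaryData Ω lam₁ mu₁ lam₂ mu₂) :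
    ∀ x ∈ Ω, lam₁ x = lam₂ x ∧ mu₁ x = mu₂ x := by
  exact Crest.Agent.R080.main Crest.Agent.R080.t_Extend relations Crest.Agent.R080.t_Final
    Ω hopen hbdd hconn hbdry lam₁ mu₁ lam₂ mu₂ hl₁ hm₁ hl₂ hm₂ hpos hdata

end Crest.Agent.S0107
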