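import Crest.Statements.S0110
import Crest.Agent.R082.ExC

set_option autoImplicit false
open MeasureTheory
open scoped ENNReal NNReal
open Crest.AnalysisR.OT
open Crest Crest.AnalysisR Crest.AnalysisR.OT

namespace Crest.Agent.S0110

/-- The exponent one third is optimal, even on the cube with three-atom targets: for d ≥ 2, ρ the uniform probability measure on the cube of points of ℝᵈ with all coordinates in [-1, 1], every α > 1/3 and every C ≥ 0, there are three-atomic probability measures μ, ν on that cube, each admitting a quadratic optimal transport map from ρ, such that for all such optimal maps Tμ, Tν some coupling π of μ, ν has C · (∫ ‖y - z‖² dπ)^α < ∫ ‖Tμ - Tν‖² dρ. Hence ‖Tμ - Tν‖_{L²(ρ)} > √C · W₂(μ, ν)^α. -/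
theorem result
    (d : ℕ) (hd : 2 ≤ d) (α : ℝ) (hα : 1 / 3 < α) (C : ℝ≥0) :
    ∃ μ ν : Measure (EuclideanSpace ℝ (Fin d)),
      IsProbabilityOn {x : EuclideanSpace ℝ (Fin d) | ∀ i, |x i| ≤ 1} μ ∧
      IsProbabilityOn {x : EuclideanSpace ℝ (Fin d) | ∀ i, |x i| ≤ 1} ν ∧
      IsThreeAtomic μ ∧ IsThreeAtomic ν ∧
      (∃ T, IsOptimalMap (uniformProbOn {x : EuclideanSpace ℝ (Fin d) | ∀ i, |x i| ≤ 1}) μ T) ∧
      (∃ T, IsOptimalMap (uniformProbOn {x : EuclideanSpace ℝ (Fin d) | ∀ i, |x i| ≤ 1}) ν T) ∧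
      ∀ Tμ Tν : EuclideanSpace ℝ (Fin d) → EuclideanSpace ℝ (Fin d),
        IsOptimalMap (uniformProbOn {x : EuclideanSpace ℝ (Fin d) | ∀ i, |x i| ≤ 1}) μ Tμ →
        IsOptimalMap (uniformProbOn {x : EuclideanSpace ℝ (Fin d) | ∀ i, |x i| ≤ 1}) ν Tν →
        ∃ π : Measure (EuclideanSpace ℝ (Fin d) × EuclideanSpace ℝ (Fin d)), IsPairCoupling μ ν π ∧
          (C : ℝ≥0∞) * quadCost π ^ α < ∫⁻ x, ‖Tμ x - Tν x‖ₑ ^ 2 ∂(uniformProbOn {x : EuclideanSpace ℝ (Fin d) | ∀ i, |x i| ≤ 1}) := by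
  have h01 : (⟨0, by omega⟩ : Fin d) ≠ ⟨1, by omega⟩ := by
    intro h; simp at h
  set i0 : Fin d := ⟨0, by omega⟩ with hi0
  set i1 : Fin d := ⟨1, by omega⟩ with hi1
  obtain ⟨δ, hδ, hδ1, hlt⟩ := Crest.Agent.R082.ExC.exists_delta α hα C
  have ht : |δ| ≤ δ := (abs_of_pos hδ).le
  have ht' : |-δ| ≤ δ := by rw [abs_neg]; exact ht
  have hδabs : |δ| ≤ 1 := ht.trans (by linarith)
  have hδabs' : |-δ| ≤ 1 := ht'.trans (by linarith)
  refine ⟨(Crest.Agent.R082.ExB.rho d).map (Crest.Agent.R082.ExB.Tm i0 i1 δ δ),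
    (Crest.Agent.R082.ExB.rho d).map (Crest.Agent.R082.ExB.Tm i0 i1 δ (-δ)),
    Crest.Agent.R082.ExC.probabilityOn hδabs, Crest.Agent.R082.ExC.probabilityOn hδabs',
    Crest.Agent.R082.ExC.threeAtomic h01 hδ hδ1 ht, Crest.Agent.R082.ExC.threeAtomic h01 hδ hδ1 ht',
    ⟨_, Crest.Agent.R082.ExC.Tm_optimal h01 hδ.le (by linarith) hδabs⟩,
    ⟨_, Crest.Agent.R082.ExC.Tm_optimal h01 hδ.le (by linarith) hδabs'⟩, ?_⟩
  intro Tμ Tν hTμ hTν
  refine ⟨Crest.Agent.R082.ExC.cpl i0 i1 δ δ, Crest.Agent.R082.ExC.cpl_isPairCoupling h01 δ δ, ?_⟩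
  refine lt_of_le_of_lt ?_ (hlt.trans_le (Crest.Agent.R082.ExC.main_lower h01 hδ hδ1 hTμ hTν))
  have hα0 : 0 ≤ α := by linarith
  rw [Crest.Agent.R082.ExC.quadCost_cpl h01]
  gcongr
  calc ENNReal.ofReal (4 * δ ^ 2) * Crest.Agent.R082.ExB.rho d (Crest.Agent.R082.ExC.midCell i0 i1 δ δ)
      ≤ ENNReal.ofReal (4 * δ ^ 2) * ENNReal.ofReal (2 * δ) := by
        gcongr
        exact Crest.Agent.R082.ExC.midCell_le h01 hδ.le ht
    _ = ENNReal.ofReal (8 * δ ^ 3) := by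
        rw [← ENNReal.ofReal_mul (by positivity)]
        congr 1; ring

end Crest.Agent.S0110
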