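import Crest.Statements.S0136
import Crest.Agent.R103.Asm

set_option autoImplicit false
open MeasureTheory
open scoped symmDiff
open Crest.AnalysisR.Billiard
open Crest Crest.AnalysisR

namespace Crest.Agent.S0136

/-- In a non-degenerate plane triangle with an angle that is an irrational multiple of π, let orbits be complete two-sided unit-speed flight chains (specular reflection at open sides, no vertex met) and μ = area in the triangle × arc length on unit velocities. Then μ-a.e. point lies on an orbit, orbits through a point agree at all times, and for Φ agreeing a.e. with the orbits, each measurable set of pairs invariant up to (μ ⊗ μ)-null sets under all (x, y) ↦ (Φ_t x, Φ_t y) is null or co-null. -/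
theorem result
    (A : Fin 3 → Plane) (hA : AffineIndependent ℝ A)
    (hirr : ∃ i : Fin 3,
      Irrational (EuclideanGeometry.angle (A (i + 1)) (A i) (A (i + 2)) / Real.pi)) :
    (∀ᵐ p ∂(phaseMeasure A), (∃ c : Chain A, c.Through p) ∧
        ∀ c c' : Chain A, c.Through p → c'.Through p →
          ∀ (τ : ℝ) (y y' : Phase), c.IsStateAt τ y → c'.IsStateAt τ y' → y = y') ∧
    ∀ Φ : ℝ → Phase → Phase,
      (∀ᵐ p ∂(phaseMeasure A), ∃ c : Chain A, c.Through p ∧ ∀ τ : ℝ, c.IsStateAt τ (Φ τ p)) →
      ∀ s : Set (Phase × Phase), MeasurableSet s →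
        (∀ τ : ℝ, ((phaseMeasure A).prod (phaseMeasure A))
            (((fun z : Phase × Phase => (Φ τ z.1, Φ τ z.2)) ⁻¹' s) ∆ s) = 0) →
        ((phaseMeasure A).prod (phaseMeasure A)) s = 0 ∨
          ((phaseMeasure A).prod (phaseMeasure A)) sᶜ = 0 := by
  exact Crest.Agent.R103.assembly A hA hirr

end Crest.Agent.S0136
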