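import Crest.Statements.S0154
import Crest.Agent.R115.Main

set_option autoImplicit false
open Crest Crest.AnalysisR

namespace Crest.Agent.S0154

/-- There is a countable pointed metric space P, unbounded, not proper, with distinct points at distance ≥ 1, whose (real) free space FreeSpace P (completion of the finitely supported molecules ∑ aₓ δₓ under the seminorm: sup of abs (∑ aₓ f x) over real 1-Lipschitz f vanishing at the base point) has the approximation property but not the bounded approximation property: finite-rank bounded operators approximate the identity uniformly on compact sets, but never with a common norm bound. -/
theorem result :
    ∃ P : Crest.AnalysisR.PointedMetric, P.IsCountableSeparatedUnboundedNonproper ∧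
      Crest.AnalysisR.HasAP P.FreeSpace ∧ ¬ Crest.AnalysisR.HasBAP P.FreeSpace :=
  Crest.Agent.R115.main

end Crest.Agent.S0154
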