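import Crest.Statements.S0167
-- import your own Crest.Agent.* helpers here
import Crest.Agent.R125.NoAUC
import Crest.Agent.R125.Daugavet
import Crest.Agent.R125.MeasureCompact

set_option autoImplicit false
open Crest Crest.AnalysisR

namespace Crest.Agent.S0167

/-- Kernel of a norming functional: a closed cofinite subspace on which the one-sided quantity is
nonnegative. -/
lemma exists_ker_norming {V : Type*} [NormedAddCommGroup V] [NormedSpace ℝ V] (x : V)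
    (hx : ‖x‖ = 1) :
    ∃ S : Submodule ℝ V, IsClosed (S : Set V) ∧ FiniteDimensional ℝ (V ⧸ S) ∧
      ∀ y ∈ S, 1 ≤ ‖x + y‖ := by
  obtain ⟨g, hg1, hg2⟩ := exists_dual_vector'' ℝ x
  refine ⟨LinearMap.ker g.toLinearMap, g.isClosed_ker, ?_, ?_⟩
  · exact FiniteDimensional.of_injective
      ((LinearMap.ker g.toLinearMap).liftQ g.toLinearMap le_rfl) (by
        rw [← LinearMap.ker_eq_bot]
        exact Submodule.ker_liftQ_eq_bot _ _ _ le_rfl)
  · intro y hy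
    have h1 : g y = 0 := hy
    have h2 : g (x + y) = 1 := by
      rw [map_add, h1, add_zero, hg2, hx]; simp
    calc (1 : ℝ) = g (x + y) := h2.symm
      _ ≤ ‖g (x + y)‖ := Real.le_norm_self _
      _ ≤ ‖g‖ * ‖x + y‖ := g.le_opNorm _
      _ ≤ 1 * ‖x + y‖ := by gcongr
      _ = ‖x + y‖ := one_mul _

/-- Upper estimates: good unit vectors in each cofinite subspace of a Daugavet space. -/
lemma exists_good_vector {V : Type*} [NormedAddCommGroup V] [NormedSpace ℝ V] [Nontrivial V]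
    (hD : L1Subspace.HasDaugavetProperty V) (x : V) (hx : ‖x‖ = 1)
    (S : Submodule ℝ V) (hS : IsClosed (S : Set V)) (hfin : FiniteDimensional ℝ (V ⧸ S))
    {t η : ℝ} (ht : 0 < t) (hη : 0 < η) :
    ∃ y ∈ S, ‖y‖ = 1 ∧ ‖x + t • y‖ ≤ 1 + t + η ∧ ‖x - t • y‖ ≤ 1 + max 0 (t - 2) + η := by
  set ε : ℝ := min (1 / 2) (η / (2 * t)) with hε
  have hε0 : 0 < ε := lt_min (by norm_num) (by positivity)
  have hε1 : ε ≤ 1 / 2 := min_le_left _ _
  have hε2 : 2 * t * ε ≤ η := by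
    have h1 : ε ≤ η / (2 * t) := min_le_right _ _
    calc 2 * t * ε ≤ 2 * t * (η / (2 * t)) := by gcongr
      _ = η := by field_simp
  obtain ⟨z, hz1, hz2, y₀, hy₀, hzy⟩ := Crest.Agent.R125.Daugavet.exists_near hD x (-x) hx.le S hS
    hfin hε0
  rw [norm_neg, hx] at hz2
  have hz2' : 2 - ε ≤ ‖z - x‖ := by
    have : z - x = -x + z := by abel
    rw [this]; linarith
  have hy₀1 : 2 - 2 * ε ≤ ‖y₀‖ := by
    have h1 : ‖z - x‖ ≤ ‖z - x - y₀‖ + ‖y₀‖ := by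
      simpa using norm_add_le (z - x - y₀) y₀
    linarith
  have hy₀2 : ‖y₀‖ ≤ 2 + ε := by
    have h1 : ‖y₀‖ ≤ ‖z - x‖ + ‖z - x - y₀‖ := by
      have := norm_sub_le (z - x) (z - x - y₀)
      rwa [sub_sub_cancel] at this
    have h2 : ‖z - x‖ ≤ 2 := by
      calc ‖z - x‖ ≤ ‖z‖ + ‖x‖ := norm_sub_le _ _
        _ ≤ 2 := by linarith
    linarith
  have hy₀pos : 0 < ‖y₀‖ := by linarith
  set y : V := (-(‖y₀‖⁻¹)) • y₀ with hy
  have hyS : y ∈ S := S.smul_mem _ hy₀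
  have hy1 : ‖y‖ = 1 := by
    rw [hy, norm_smul, norm_neg, norm_inv, norm_norm, inv_mul_cancel₀ hy₀pos.ne']
  -- `y` is close to `(x - z)/2`
  have hclose : ‖y - (1 / 2 : ℝ) • (x - z)‖ ≤ 2 * ε := by
    have h1 : y - (1 / 2 : ℝ) • (x - z) = (1 / 2 - ‖y₀‖⁻¹) • y₀ + (1 / 2 : ℝ) • (z - x - y₀) := by
      rw [hy]; module
    have h2 : ‖(1 / 2 - ‖y₀‖⁻¹) • y₀‖ ≤ ε := by
      rw [norm_smul, Real.norm_eq_abs]
      have h3 : |1 / 2 - ‖y₀‖⁻¹| * ‖y₀‖ = |‖y₀‖ / 2 - 1| := by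
        have h5 : (1 / 2 - ‖y₀‖⁻¹) * ‖y₀‖ = ‖y₀‖ / 2 - 1 := by
          rw [sub_mul, inv_mul_cancel₀ hy₀pos.ne']; ring
        rw [← h5, abs_mul, abs_of_pos hy₀pos]
      rw [h3, abs_le]
      constructor <;> linarith
    have h4 : ‖(1 / 2 : ℝ) • (z - x - y₀)‖ ≤ ε := by
      rw [norm_smul]
      norm_num
      linarith
    calc ‖y - (1 / 2 : ℝ) • (x - z)‖ = _ := by rw [h1]
      _ ≤ ‖(1 / 2 - ‖y₀‖⁻¹) • y₀‖ + ‖(1 / 2 : ℝ) • (z - x - y₀)‖ := norm_add_le _ _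
      _ ≤ 2 * ε := by linarith
  have hb1 : ‖x + t • y‖ ≤ 1 + t + 2 * t * ε := by
    have h1 : x + t • y = (1 + t / 2) • x + (-(t / 2)) • z + t • (y - (1 / 2 : ℝ) • (x - z)) := by
      module
    rw [h1]
    calc _ ≤ ‖(1 + t / 2) • x‖ + ‖(-(t / 2)) • z‖ + ‖t • (y - (1 / 2 : ℝ) • (x - z))‖ :=
          norm_add₃_le
      _ ≤ (1 + t / 2) * 1 + (t / 2) * 1 + t * (2 * ε) := by
          rw [norm_smul, norm_smul, norm_smul, norm_neg, Real.norm_of_nonneg (by positivity),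
            Real.norm_of_nonneg (by positivity), Real.norm_of_nonneg ht.le, hx]
          gcongr
      _ = 1 + t + 2 * t * ε := by ring
  have hb2 : ‖x - t • y‖ ≤ 1 + max 0 (t - 2) + 2 * t * ε := by
    have h1 : x - t • y = (1 - t / 2) • x + (t / 2) • z + (-t) • (y - (1 / 2 : ℝ) • (x - z)) := by
      module
    rw [h1]
    have habs : |1 - t / 2| + t / 2 ≤ 1 + max 0 (t - 2) := by
      rcases le_total t 2 with h | h
      · rw [abs_of_nonneg (by linarith)]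
        linarith [le_max_left 0 (t - 2)]
      · rw [abs_of_nonpos (by linarith)]
        linarith [le_max_right 0 (t - 2)]
    calc _ ≤ ‖(1 - t / 2) • x‖ + ‖(t / 2) • z‖ + ‖(-t) • (y - (1 / 2 : ℝ) • (x - z))‖ :=
          norm_add₃_le
      _ ≤ |1 - t / 2| * 1 + (t / 2) * 1 + t * (2 * ε) := by
          rw [norm_smul, norm_smul, norm_smul, norm_neg, Real.norm_eq_abs,
            Real.norm_of_nonneg (show (0 : ℝ) ≤ t / 2 by positivity),
            Real.norm_of_nonneg ht.le, hx]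
          gcongr
      _ ≤ 1 + max 0 (t - 2) + 2 * t * ε := by linarith
  exact ⟨y, hyS, hy1, by linarith, by linarith⟩

section general

variable {V : Type*} [NormedAddCommGroup V] [NormedSpace ℝ V] [Nontrivial V]

lemma avg_upper (hD : L1Subspace.HasDaugavetProperty V) {t : ℝ} (ht : 0 < t) :
    ∀ x : V, ‖x‖ = 1 → ∀ F : Set V,
      (∃ S : Submodule ℝ V, (S : Set V) = F ∧ IsClosed F ∧ FiniteDimensional ℝ (V ⧸ S)) →
      ∀ η : ℝ, 0 < η → ∃ y ∈ F, ‖y‖ = 1 ∧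
        (‖x + t • y‖ + ‖x - t • y‖) / 2 - 1 ≤ max (t / 2) (t - 1) + η := by
  intro x hx F hF η hη
  obtain ⟨S, rfl, hS, hfin⟩ := hF
  obtain ⟨y, hyS, hy1, hb1, hb2⟩ := exists_good_vector hD x hx S hS hfin ht hη
  refine ⟨y, hyS, hy1, ?_⟩
  have h1 : (1 + t + (1 + max 0 (t - 2))) / 2 - 1 ≤ max (t / 2) (t - 1) := by
    rcases max_cases 0 (t - 2) with ⟨h, -⟩ | ⟨h, -⟩ <;> rw [h]
    · linarith [le_max_left (t / 2) (t - 1)]
    · linarith [le_max_right (t / 2) (t - 1)]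
  linarith

omit [Nontrivial V] in
lemma one_lower {t : ℝ} (ht : 0 < t) :
    ∀ x : V, ‖x‖ = 1 → ∀ η : ℝ, 0 < η → ∃ F : Set V,
      (∃ S : Submodule ℝ V, (S : Set V) = F ∧ IsClosed F ∧ FiniteDimensional ℝ (V ⧸ S)) ∧
      ∀ y ∈ F, ‖y‖ = 1 → max 0 (t - 2) - η ≤ ‖x + t • y‖ - 1 := by
  intro x hx η hη
  obtain ⟨S, hS, hfin, hy⟩ := exists_ker_norming x hx
  refine ⟨(S : Set V), ⟨S, rfl, hS, hfin⟩, fun y hyS hy1 => ?_⟩
  have h1 := hy (t • y) (S.smul_mem t hyS)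
  have h2 : t - 1 ≤ ‖x + t • y‖ := by
    have h3 : ‖t • y‖ ≤ ‖x + t • y‖ + ‖x‖ := by
      have := norm_sub_le (x + t • y) x
      rwa [add_sub_cancel_left] at this
    rw [norm_smul, hy1, Real.norm_of_nonneg ht.le, hx] at h3
    linarith
  rcases max_cases 0 (t - 2) with ⟨h, -⟩ | ⟨h, -⟩ <;> rw [h] <;> linarith

lemma one_upper (hD : L1Subspace.HasDaugavetProperty V) {t : ℝ} (ht : 0 < t) :
    ∀ x : V, ‖x‖ = 1 → ∀ F : Set V,
      (∃ S : Submodule ℝ V, (S : Set V) = F ∧ IsClosed F ∧ FiniteDimensional ℝ (V ⧸ S)) →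
      ∀ η : ℝ, 0 < η → ∃ y ∈ F, ‖y‖ = 1 ∧ ‖x + t • y‖ - 1 ≤ max 0 (t - 2) + η := by
  intro x hx F hF η hη
  obtain ⟨S, rfl, hS, hfin⟩ := hF
  obtain ⟨y, hyS, hy1, hb1, hb2⟩ := exists_good_vector hD x hx S hS hfin ht hη
  refine ⟨-y, S.neg_mem hyS, by rw [norm_neg]; exact hy1, ?_⟩
  rw [smul_neg, ← sub_eq_add_neg]
  linarith

lemma exists_ne_zero_ball : ∃ x ∈ Metric.closedBall (0 : V) 1, x ≠ 0 := by
  obtain ⟨v, hv⟩ := exists_norm_eq V (zero_le_one)
  refine ⟨v, mem_closedBall_zero_iff.2 hv.le, ?_⟩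
  rintro rfl
  rw [norm_zero] at hv
  exact zero_ne_one hv

lemma steps (hD : L1Subspace.HasDaugavetProperty V) :
    ∀ x ∈ Metric.closedBall (0 : V) 1, ∀ S : Submodule ℝ V, IsClosed (S : Set V) →
      FiniteDimensional ℝ (V ⧸ S) →
      ∀ ε : ℝ, 0 < ε → ∃ x' ∈ Metric.closedBall (0 : V) 1, 1 / 2 ≤ ‖x' - x‖ ∧
        ∃ y ∈ S, ‖(x' - x) - y‖ < ε := by
  intro x hx S hS hfin ε hε
  have hx1 : ‖x‖ ≤ 1 := mem_closedBall_zero_iff.1 hx
  obtain ⟨z, hz1, hz2, y, hy, hzy⟩ := Crest.Agent.R125.Daugavet.exists_near hD x (-x) hx1 S hS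
    hfin (ε := min (ε / 2) (1 / 2)) (lt_min (by positivity) (by norm_num))
  refine ⟨z, mem_closedBall_zero_iff.2 hz1, ?_, y, hy, ?_⟩
  · have h1 : z - x = -x + z := by abel
    rw [h1]
    have h2 := min_le_right (ε / 2) (1 / 2)
    have h3 := norm_nonneg (-x)
    linarith
  · have h2 := min_le_left (ε / 2) (1 / 2)
    linarith

end general

lemma avg_lower {Ω : Type} [MeasurableSpace Ω] (P : MeasureTheory.Measure Ω)
    [MeasureTheory.IsProbabilityMeasure P] (E : Submodule ℝ (MeasureTheory.Lp ℝ 1 P))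
    (htb : Crest.AnalysisR.L1Subspace.UnitBallTotallyBoundedInMeasure P E) {t : ℝ} (ht : 0 < t) :
    ∀ x : E, ‖x‖ = 1 → ∀ η : ℝ, 0 < η → ∃ F : Set E,
      (∃ S : Submodule ℝ E, (S : Set E) = F ∧ IsClosed F ∧ FiniteDimensional ℝ (E ⧸ S)) ∧
      ∀ y ∈ F, ‖y‖ = 1 →
        max (t / 2) (t - 1) - η ≤ (‖x + t • y‖ + ‖x - t • y‖) / 2 - 1 := by
  intro x hx η hη
  obtain ⟨S, hS, hfin, hy⟩ := Crest.Agent.R125.MeasureCompact.midpoint_lower P E htb x hx ht hη
  refine ⟨(S : Set E), ⟨S, rfl, hS, hfin⟩, fun y hyS hy1 => ?_⟩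
  have h1 := hy y hyS hy1
  have h2 : t ≤ (‖x + t • y‖ + ‖x - t • y‖) / 2 := by
    have h3 : ‖(2 * t) • y‖ ≤ ‖x + t • y‖ + ‖x - t • y‖ := by
      have h4 : (2 * t) • y = (x + t • y) - (x - t • y) := by module
      rw [h4]; exact norm_sub_le _ _
    rw [norm_smul, hy1, Real.norm_of_nonneg (by positivity)] at h3
    linarith
  rcases max_cases (t / 2) (t - 1) with ⟨h, -⟩ | ⟨h, -⟩ <;> rw [h] <;> linarith

/-- Let E be an infinite-dimensional closed subspace of the real L¹ of a probability space whose closed unit ball is totally bounded for convergence in measure and whose norm has the Daugavet property. Then at every unit x ∈ E and every t > 0 the averaged midpoint quantity sup_F inf_y ((‖x+ty‖+‖x-ty‖)/2 - 1) equals max(t/2, t-1) and the one-sided one sup_F inf_y (‖x+ty‖ - 1) equals max(0, t-2), as matching lower and upper bounds, and E admits no equivalent asymptotically uniformly convex norm. -/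
theorem result (Ω : Type) [MeasurableSpace Ω] (P : MeasureTheory.Measure Ω) [MeasureTheory.IsProbabilityMeasure P]
    (E : Submodule ℝ (MeasureTheory.Lp ℝ 1 P)) (hcl : IsClosed (E : Set (MeasureTheory.Lp ℝ 1 P)))
    (hinf : ¬ FiniteDimensional ℝ E)
    (htb : Crest.AnalysisR.L1Subspace.UnitBallTotallyBoundedInMeasure P E)
    (hD : Crest.AnalysisR.L1Subspace.HasDaugavetProperty E) :
    (∀ t : ℝ, 0 < t →
      (Crest.AnalysisR.L1Subspace.toRealBanach P E hcl).MidpointModulusGE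
          (Crest.AnalysisR.L1Subspace.toRealBanach P E hcl).norm t (max (t / 2) (t - 1)) ∧
        (Crest.AnalysisR.L1Subspace.toRealBanach P E hcl).MidpointModulusLE
          (Crest.AnalysisR.L1Subspace.toRealBanach P E hcl).norm t (max (t / 2) (t - 1)) ∧
        (Crest.AnalysisR.L1Subspace.toRealBanach P E hcl).OneSidedModulusGE
          (Crest.AnalysisR.L1Subspace.toRealBanach P E hcl).norm t (max 0 (t - 2)) ∧
        (Crest.AnalysisR.L1Subspace.toRealBanach P E hcl).OneSidedModulusLE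
          (Crest.AnalysisR.L1Subspace.toRealBanach P E hcl).norm t (max 0 (t - 2))) ∧
      ∀ N : E → ℝ, (Crest.AnalysisR.L1Subspace.toRealBanach P E hcl).IsEquivNorm N →
        ¬ (Crest.AnalysisR.L1Subspace.toRealBanach P E hcl).IsAUC N := by
  have hnt : Nontrivial E := by
    by_contra hcon
    rw [not_nontrivial_iff_subsingleton] at hcon
    exact hinf inferInstance
  refine ⟨fun t ht => ⟨?_, ?_, ?_, ?_⟩, ?_⟩
  · exact avg_lower P E htb ht
  · exact avg_upper (V := E) hD ht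
  · exact one_lower (V := E) ht
  · exact one_upper (V := E) hD ht
  · intro N hN hA
    have hN' : (∀ x y : E, N (x + y) ≤ N x + N y) ∧ (∀ (a : ℝ) (x : E), N (a • x) = |a| * N x) ∧
      ∃ a b : ℝ, 0 < a ∧ ∀ x : E, a * ‖x‖ ≤ N x ∧ N x ≤ b * ‖x‖ := hN
    obtain ⟨hadd, hsmul, a, b, ha, hab⟩ := hN'
    have hA' : ∀ t : ℝ, 0 < t → ∃ c : ℝ, 0 < c ∧ ∀ x : E, N x = 1 → ∃ F : Set E,
      (∃ S : Submodule ℝ E, (S : Set E) = F ∧ IsClosed F ∧ FiniteDimensional ℝ (E ⧸ S)) ∧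
        ∀ y ∈ F, N y = 1 → c ≤ N (x + t • y) - 1 := hA
    exact Crest.Agent.R125.false_of_steps (X := E) N hadd hsmul a b ha hab hA'
      (Metric.closedBall (0 : E) 1) 1 (1 / 2) (by norm_num)
      (fun x hx => mem_closedBall_zero_iff.1 hx) (exists_ne_zero_ball) (steps hD)

end Crest.Agent.S0167
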