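import Crest.Statements.S0169
import Crest.Agent.R125.Core
import Crest.Agent.R125.TreeProd

set_option autoImplicit false
open MeasureTheory ProbabilityTheory
open Crest Crest.AnalysisR

namespace Crest.Agent.S0169

open Crest.Agent.R125 Crest.Agent.R125.TreeProd in
/-- Let ν be a Borel probability law on ℝ carried by (0,∞), not a point mass, with mean 1 and finite second moment, and W an independent family of real random variables on a probability space indexed by the vertices of the countably branching tree (finite lists of naturals; root [], parent of a :: v is v), each non-root one with law ν. Then the closed linear span in L¹ of the path products ∏_{root ≺ u ≼ v} W_u is infinite-dimensional and has no equivalent asymptotically uniformly convex norm. -/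
theorem result (ν : Measure ℝ) [IsProbabilityMeasure ν] (hpos : ν (Set.Ioi 0) = 1)
    (hnc : ∀ c : ℝ, ν ≠ Measure.dirac c) (hmean : ∫ x, x ∂ν = 1)
    (hm2 : Integrable (fun x : ℝ => x ^ 2) ν)
    (Ω : Type) [MeasurableSpace Ω] (μ : Measure Ω) [IsProbabilityMeasure μ]
    (W : List ℕ → Ω → ℝ) (hW : Crest.AnalysisR.TreeProduct.IsRealization ν μ W) :
    ¬ FiniteDimensional ℝ (Crest.AnalysisR.TreeProduct.productSpan μ W) ∧
      ∀ N : (Crest.AnalysisR.TreeProduct.spanBanach μ W).X → ℝ,
        (Crest.AnalysisR.TreeProduct.spanBanach μ W).IsEquivNorm N →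
          ¬ (Crest.AnalysisR.TreeProduct.spanBanach μ W).IsAUC N := by
  have D := data_of_isRealization hpos hmean hm2 hW
  have hδ := absdev_pos hnc hm2
  set δ : ℝ := ∫ x, |x - 1| ∂ν with hδdef
  set σ : ℝ := ∫ x, (x - 1) ^ 2 ∂ν with hσdef
  have key : ∀ N : (Crest.AnalysisR.TreeProduct.spanBanach μ W).X → ℝ,
      (Crest.AnalysisR.TreeProduct.spanBanach μ W).IsEquivNorm N →
        ¬ (Crest.AnalysisR.TreeProduct.spanBanach μ W).IsAUC N := by
    intro N hN
    refine not_isAUC_of_tree (X := Crest.AnalysisR.TreeProduct.productSpan μ W)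
      (Submodule.isClosed_topologicalClosure _).completeSpace_coe
      (fun _ => Set.range fun v : List ℕ => (⟨D.cls v, D.cls_mem v⟩ :
        Crest.AnalysisR.TreeProduct.productSpan μ W)) 1 1 δ one_pos hδ ?_ ?_ ?_ N hN
    · rintro j _ ⟨v, rfl⟩
      exact (D.norm_cls v).le
    · intro j
      exact ⟨_, ⟨[], rfl⟩, (D.norm_cls []).ge⟩
    · rintro j _ ⟨v, rfl⟩ S hS hfin η hη
      obtain ⟨n₀, hn₀⟩ := eventually_near_of_l2_upper
        (fun n : ℕ => (⟨D.cls (n :: v), D.cls_mem _⟩ - ⟨D.cls v, D.cls_mem _⟩ :
          Crest.AnalysisR.TreeProduct.productSpan μ W))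
        (Real.sqrt ((∫ z, TreeProduct.pathProduct W v z ^ 2 ∂μ) * σ))
        (fun A ε hε => by
          have := D.norm_sum_cls_sub v A ε hε
          refine le_trans (le_of_eq ?_) this
          have h : ∀ x : Crest.AnalysisR.TreeProduct.productSpan μ W,
              ‖x‖ = ‖(x : Lp ℝ 1 μ)‖ := fun _ => rfl
          rw [h]
          congr 1
          simp)
        S hS hfin η hη
      obtain ⟨y, hyS, hy⟩ := hn₀ n₀ le_rfl
      refine ⟨⟨D.cls (n₀ :: v), D.cls_mem _⟩, ⟨_, rfl⟩, y, hyS, ?_, hy⟩
      exact (D.norm_cls_sub v n₀).ge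
  exact ⟨not_finiteDimensional_of_not_isAUC _ key, key⟩

end Crest.Agent.S0169
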