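import Crest.Statements.S0181
import Crest.Agent.R132.GSim

set_option autoImplicit false
open scoped ComplexOrder
open Crest.AnalysisR.NumRange
open Crest Crest.AnalysisR Crest.AnalysisR.NumRange

namespace Crest.Agent.S0181

/-- Setting of the optimal-metric statement; also G is holomorphic and injective on {t : r < ‖t‖} for some r < 1 with G({t : 1 < ‖t‖}) the complement of the closure of Ω, (H, κ²) is an optimal metric pair for f(A), and S ≽ 0 with S² = H. Then one continuous 2π-periodic positive semidefinite density Λ of mean I gives, for all m ≥ 1 and m × m matrix-valued v holomorphic near the closure of Ω, v[SAS⁻¹] = (1/2π) ∫ Λ(θ) ⊗ v(G(e^{iθ})) dθ entrywise, and ‖v[A]‖ ≤ κ sup ‖v‖ over the closure of Ω. -/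
theorem result
    (n : ℕ) (hn : 1 ≤ n) (A : Matrix (Fin n) (Fin n) ℂ)
    (Ω U : Set ℂ) (hΩ₁ : IsOpen Ω) (hΩ₂ : Bornology.IsBounded Ω) (hΩ₃ : Convex ℝ Ω)
    (hU : IsOpen U) (hΩU : closure Ω ⊆ U)
    (f : ℂ → ℂ) (hf₁ : DifferentiableOn ℂ f U) (hf₂ : Set.InjOn f U)
    (hf₃ : f '' Ω = Metric.ball 0 1)
    (G : ℂ → ℂ) (r : ℝ) (hr₁ : 0 < r) (hr₂ : r < 1)
    (hG₁ : DifferentiableOn ℂ G {t : ℂ | r < ‖t‖}) (hG₂ : Set.InjOn G {t : ℂ | r < ‖t‖})
    (hG₃ : G '' {t : ℂ | 1 < ‖t‖} = (closure Ω)ᶜ)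
    (hA : numRange A ⊆ Ω) (p : Polynomial ℂ) (hp : AgreesOnSpectrum A f p)
    (H : Matrix (Fin n) (Fin n) ℂ) (κsq : ℝ) (hH : IsOptimalMetric (Polynomial.aeval A p) H κsq)
    (S : Matrix (Fin n) (Fin n) ℂ) (hS₁ : S.PosSemidef) (hS₂ : S * S = H) :
    ∃ Λ : ℝ → Matrix (Fin n) (Fin n) ℂ, Continuous Λ ∧ Function.Periodic Λ (2 * Real.pi) ∧
      (∀ θ, (Λ θ).PosSemidef) ∧
      (∀ a b, (2 * Real.pi : ℂ)⁻¹ * (∫ θ in (0 : ℝ)..2 * Real.pi, Λ θ a b)
        = (1 : Matrix (Fin n) (Fin n) ℂ) a b) ∧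
      ∀ (m : ℕ), 1 ≤ m → ∀ (V : Set ℂ), IsOpen V → closure Ω ⊆ V →
        ∀ v : ℂ → Matrix (Fin m) (Fin m) ℂ, (∀ c d, DifferentiableOn ℂ (fun z => v z c d) V) →
        ∀ q : Fin m → Fin m → Polynomial ℂ,
          (∀ c d, AgreesOnSpectrum A (fun z => v z c d) (q c d)) →
          (∀ a b c d, Polynomial.aeval (S * A * S⁻¹) (q c d) a b =
              (2 * Real.pi : ℂ)⁻¹ * (∫ θ in (0 : ℝ)..2 * Real.pi,
                Λ θ a b * v (G (Complex.exp ((θ : ℂ) * Complex.I))) c d)) ∧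
          ∀ M : ℝ, (∀ z ∈ closure Ω, ‖Matrix.toEuclideanCLM (n := Fin m) (𝕜 := ℂ) (v z)‖ ≤ M) →
            ‖Matrix.toEuclideanCLM (n := Fin n × Fin m) (𝕜 := ℂ)
                (Matrix.of fun (i : Fin n × Fin m) (j : Fin n × Fin m) =>
                  Polynomial.aeval A (q i.2 j.2) i.1 j.1)‖ ≤ Real.sqrt κsq * M := by
  -- bundled data
  have D : Crest.Agent.R132.GS.Data Ω U f G r :=
    ⟨hΩ₁, hΩ₂, hΩ₃, hU, hΩU, hf₁, hf₂, hf₃, hr₁, hr₂, hG₁, hG₂, hG₃⟩
  have hMt : Crest.Agent.R132.GS.Metr (Polynomial.aeval A p) H S κsq :=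
    ⟨hH.1.1, hH.1.2.1, hH.1.2.2, hS₁, hS₂⟩
  have hdet := hMt.isUnit_det
  have hspecA : ∀ μ ∈ spectrum ℂ A, μ ∈ Ω := fun μ hμ =>
    hA (Crest.Agent.R132.GS.mem_numRange_of_mem_spectrum hμ)
  haveI : Nonempty (Fin n) := ⟨⟨0, hn⟩⟩
  set B : Matrix (Fin n) (Fin n) ℂ := S * A * S⁻¹ with hB
  set C : Matrix (Fin n) (Fin n) ℂ := S * Polynomial.aeval A p * S⁻¹ with hC
  have hCB : C = Polynomial.aeval B p := by
    rw [hB, Crest.Agent.R132.GS.aeval_conj hdet]
  have hCC : (1 - C.conjTranspose * C).PosSemidef := hMt.contraction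
  have hInv : Crest.Agent.R132.GS.Inv C := by
    apply Crest.Agent.R132.GS.inv_of_spectrum
    intro ν hν
    have hBne : (spectrum ℂ B).Nonempty := spectrum.nonempty_of_isAlgClosed_of_finiteDimensional ℂ B
    rw [hCB, spectrum.map_polynomial_aeval_of_nonempty B p hBne] at hν
    obtain ⟨μ, hμ, rfl⟩ := hν
    rw [hB, Crest.Agent.R132.GS.spectrum_conj hdet] at hμ
    have h1 : p.eval μ = f μ := by
      have := hp μ hμ 0 (by omega)
      simpa using this
    have h2 : f μ ∈ f '' Ω := ⟨μ, hspecA μ hμ, rfl⟩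
    rw [hf₃] at h2
    simp only [h1]
    simpa using h2
  have hker : ∀ Q : Polynomial ℂ,
      (∏ μ ∈ Crest.Agent.R132.GS.eigs A, (Polynomial.X - Polynomial.C μ)) ^ n ∣ Q →
      Polynomial.aeval B Q = 0 := by
    intro Q hQ
    rw [hB, Crest.Agent.R132.GS.aeval_conj hdet, Crest.Agent.R132.GS.aeval_eq_zero_of_dvd hQ,
      Matrix.mul_zero, Matrix.zero_mul]
  have hspecE : ∀ μ ∈ Crest.Agent.R132.GS.eigs A, μ ∈ Ω := fun μ hμ =>
    hspecA μ (Crest.Agent.R132.GS.mem_eigs.mp hμ)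
  -- the circle parametrisation
  have hexp : ∀ θ : ℝ, Complex.exp ((θ : ℂ) * Complex.I) ∈ Metric.sphere (0 : ℂ) 1 := by
    intro θ
    rw [mem_sphere_zero_iff_norm, Complex.norm_exp_ofReal_mul_I]
  have hexpc : Continuous (fun θ : ℝ => Complex.exp ((θ : ℂ) * Complex.I)) := by fun_prop
  have hcav : ∀ F : ℂ → ℂ, Crest.Agent.R132.GS.cav F =
      (2 * Real.pi : ℂ)⁻¹ * ∫ θ in (0 : ℝ)..2 * Real.pi, F (Complex.exp ((θ : ℂ) * Complex.I)) := by
    intro F
    unfold Crest.Agent.R132.GS.cav Real.circleAverage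
    have h1 : ∀ θ : ℝ, circleMap 0 1 θ = Complex.exp ((θ : ℂ) * Complex.I) := by
      intro θ; simp [circleMap]
    simp only [h1, Complex.real_smul]
    push_cast
    rfl
  refine ⟨fun θ => Crest.Agent.R132.GS.Lam f G C (Complex.exp ((θ : ℂ) * Complex.I)), ?_, ?_, ?_, ?_, ?_⟩
  · apply continuous_matrix
    intro a b
    exact (D.Lam_cont hInv a b).comp_continuous hexpc hexp
  · intro θ
    have : Complex.exp (((θ + 2 * Real.pi : ℝ) : ℂ) * Complex.I) =
        Complex.exp ((θ : ℂ) * Complex.I) := by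
      push_cast
      rw [add_mul, Complex.exp_add, Complex.exp_two_pi_mul_I, mul_one]
    simp only [this]
  · intro θ
    exact D.Lam_psd hInv hCC (by simpa using hexp θ)
  · intro a b
    have := D.cav_Lam_one hInv a b
    rw [hcav] at this
    exact this
  · intro m hm V hV hΩV v hv q hq
    have hvK : ∀ c d, DifferentiableOn ℂ (fun z => v z c d) (closure Ω) := fun c d =>
      (hv c d).mono hΩV
    have hmain : ∀ a b c d, Polynomial.aeval B (q c d) a b =
        Crest.Agent.R132.GS.cav (fun t => Crest.Agent.R132.GS.Lam f G C t a b * v (G t) c d) := by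
      intro a b c d
      have h1 := D.cav_Lam hInv (hvK c d) a b
      rw [h1, D.J_main hn hInv hCB hker hspecE hp hV hΩV (hv c d) (hq c d)]
    refine ⟨?_, ?_⟩
    · intro a b c d
      rw [hmain a b c d, hcav]
    · intro M hM
      have hM0 : 0 ≤ M := by
        obtain ⟨μ, hμ⟩ : (spectrum ℂ A).Nonempty :=
          spectrum.nonempty_of_isAlgClosed_of_finiteDimensional ℂ A
        exact (norm_nonneg _).trans (hM μ (subset_closure (hspecA μ hμ)))
      have hκ : 0 < κsq := lt_of_lt_of_le one_pos (hMt.kappa hn)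
      apply Crest.Agent.R132.GS.opNorm_le hM0 hκ (Q := fun c d => Polynomial.aeval A (q c d))
      intro η ξ
      have h1 := Crest.Agent.R132.GS.re_sum_le (M := M)
        (L := fun t => Crest.Agent.R132.GS.Lam f G C t) (V := fun t => v (G t))
        (fun a b => D.Lam_cont hInv a b)
        (fun c d => D.comp_cont (hvK c d).continuousOn)
        (fun t ht => D.Lam_psd hInv hCC ht)
        (fun a b => D.cav_Lam_one hInv a b)
        (fun t ht => hM _ (D.mem ht))
        (Q := fun c d => Polynomial.aeval B (q c d))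
        (fun a b c d => hmain a b c d) (S⁻¹ * η) (S * ξ)
      have h2 : ∀ c d, ((S⁻¹ * η).conjTranspose * Polynomial.aeval B (q c d) * (S * ξ)) =
          η.conjTranspose * Polynomial.aeval A (q c d) * ξ := by
        intro c d
        have hi1 : S⁻¹ * S = 1 := Matrix.nonsing_inv_mul _ hdet
        rw [hB, Crest.Agent.R132.GS.aeval_conj hdet, Matrix.conjTranspose_mul, hMt.inv_herm]
        calc η.conjTranspose * S⁻¹ * (S * Polynomial.aeval A (q c d) * S⁻¹) * (S * ξ)
            = η.conjTranspose * (S⁻¹ * S) * Polynomial.aeval A (q c d) * (S⁻¹ * S) * ξ := by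
              simp only [Matrix.mul_assoc]
          _ = η.conjTranspose * Polynomial.aeval A (q c d) * ξ := by
              rw [hi1, Matrix.mul_one, Matrix.mul_one]
      simp only [h2] at h1
      refine h1.trans ?_
      have h3 := hMt.fro_le ξ
      have h4 := hMt.fro_inv_le η
      gcongr

end Crest.Agent.S0181
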