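import Crest.Statements.S0222
import Crest.Agent.R155.PartN
import Crest.Agent.R155.PartR
import Crest.Agent.R155.Law

set_option autoImplicit false
open Crest Crest.ProbabilityR

namespace Crest.Agent.S0222

open Crest.Agent.R155 Crest.ProbabilityR.Shuffle

theorem cv_law_dl (m t : ℕ) (g : Equiv.Perm (Fin (2 * m))) :
    (cv (law m t) (dl 1)) g = law m t g := by
  rw [cv_apply]
  simp only [dl_apply]
  rw [Finset.sum_eq_single g]
  · simp
  · intro b _ hb
    have : ¬ (b⁻¹ * g = 1) := fun h => hb (inv_mul_eq_one.1 h)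
    simp [this]
  · intro h; exact absurd (Finset.mem_univ _) h

theorem cv_law_iter (m T : ℕ) : ∀ K : ℕ,
    cv (law m (K * T)) (dl 1) = ((fun f => cv (law m T) f)^[K] (dl 1))
  | 0 => by
    rw [Function.iterate_zero, id_eq]
    ext g
    rw [cv_law_dl, Nat.zero_mul, dl_apply, law_eq_avg]
    unfold avg
    have : ∀ cs : Fin 0 → Fin m → Bool, permOf m 0 cs = 1 := by
      intro cs
      apply Equiv.ext
      intro x
      rfl
    simp only [this]
    by_cases h : g = 1
    · subst h; simp
    · simp [h, Ne.symm h]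
  | K + 1 => by
    have h : (K + 1) * T = T + K * T := by ring
    rw [h, law_add_dl, Function.iterate_succ_apply', cv_law_iter m T K]

/-- Shuffle a deck of `n = 2 * 2 ^ d` cards `1600 * (d + 1)` times, that is `1600 * log₂ n` times. The total variation distance between the law of the resulting arrangement of the whole deck and the uniform law on all arrangements tends to `0` as `d → ∞`. -/
theorem result :
    Filter.Tendsto (fun d : ℕ => Crest.ProbabilityR.Shuffle.tvFromUniform (2 ^ d) (1600 * (d + 1)))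
      Filter.atTop (nhds 0) := by
  rw [Metric.tendsto_atTop]
  intro ε hε
  obtain ⟨e1, h1⟩ := partN
  obtain ⟨e2, h2⟩ := partR ε hε
  refine ⟨max e1 e2 + 2, fun d hd => ?_⟩
  obtain ⟨e, rfl⟩ : ∃ e, d = e + 2 := ⟨d - 2, by omega⟩
  have he1 : e1 ≤ e := by have := le_max_left e1 e2; omega
  have he2 : e2 ≤ e := by have := le_max_right e1 e2; omega
  set m : ℕ := 2 ^ (e + 2) with hm
  have hm4 : m = 4 * 2 ^ e := by rw [hm]; ring
  have h2m : 2 * m = 8 * 2 ^ e := by rw [hm4]; ring
  have hpos : 0 < 2 ^ e := by positivity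
  have hfac : (2 * m).factorial = (8 * 2 ^ e).factorial := congrArg Nat.factorial h2m
  have hnn : 0 ≤ tvFromUniform m (1600 * (e + 2 + 1)) := by
    rw [tv_eq_law]
    exact mul_nonneg (by norm_num) (Finset.sum_nonneg fun _ _ => abs_nonneg _)
  rw [Real.dist_eq, sub_zero, abs_of_nonneg hnn]
  have h3 : tvFromUniform m (1600 * (e + 2 + 1)) ≤ tvFromUniform m (1 + 6 * (266 * (e + 3))) := by
    have : 1600 * (e + 2 + 1) = (4 * e + 11) + (1 + 6 * (266 * (e + 3))) := by ring
    rw [this]
    exact tv_mono m _ _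
  refine lt_of_le_of_lt h3 ?_
  rw [tv_eq_law]
  have hk : K0 e < m := by
    unfold K0
    rw [hm4]
    exact Nat.sqrt_lt_self (by omega)
  have h4 := h2 e he2 (Fin (2 * m)) (by rw [Fintype.card_fin, h2m])
    (law m 1) (law m (266 * (e + 3))) (law_nonneg m 1) (law_sum m 1)
    (fun f hf => law_one_kill m (K0 e) hk f hf) (h1 e he1)
  have h5 : ∑ g : Equiv.Perm (Fin (2 * m)), |law m (1 + 6 * (266 * (e + 3))) g -
      1 / ((2 * m).factorial : ℝ)| ≤ ε := by
    refine le_trans (le_of_eq ?_) h4
    refine Finset.sum_congr rfl fun g _ => ?_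
    rw [← cv_law_iter m (266 * (e + 3)) 6, ← law_add_dl, cv_law_dl, hfac]
  linarith

end Crest.Agent.S0222
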