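import Crest.Statements.S0223

set_option autoImplicit false
open Crest Crest.ProbabilityR

namespace Crest.Agent.S0223

open Crest.ProbabilityR.Shuffle

theorem stepPos_injective (m : ℕ) (c : Fin m → Bool) : Function.Injective (stepPos m c) := by
  intro x y h
  have hx := x.isLt
  have hy := y.isLt
  have hmx : x.val % m < m := Nat.mod_lt _ (by omega)
  have hmy : y.val % m < m := Nat.mod_lt _ (by omega)
  have hval : (stepPos m c x).val = (stepPos m c y).val := by rw [h]
  simp only [stepPos] at hval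
  have hmod : x.val % m = y.val % m := by
    split at hval <;> split at hval <;> omega
  have hc : c ⟨x.val % m, hmx⟩ = c ⟨y.val % m, hmy⟩ := by
    congr 1
    exact Fin.ext hmod
  rw [hc] at hval
  have hhalf : (m ≤ x.val) ↔ (m ≤ y.val) := by
    by_cases h1 : m ≤ x.val <;> by_cases h2 : m ≤ y.val <;>
      cases hcy : c ⟨y.val % m, hmy⟩ <;> simp [h1, h2, hcy] at hval ⊢ <;> omega
  apply Fin.ext
  have e1 := Nat.mod_add_div x.val m
  have e2 := Nat.mod_add_div y.val m
  have d1 : x.val / m < 2 := Nat.div_lt_of_lt_mul (by omega)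
  have d2 : y.val / m < 2 := Nat.div_lt_of_lt_mul (by omega)
  have hd : x.val / m = y.val / m := by
    have hm : 0 < m := by omega
    by_cases h1 : m ≤ x.val
    · have h2 := hhalf.1 h1
      have a1 : 1 ≤ x.val / m := (Nat.le_div_iff_mul_le hm).2 (by omega)
      have a2 : 1 ≤ y.val / m := (Nat.le_div_iff_mul_le hm).2 (by omega)
      omega
    · have h2 : ¬ m ≤ y.val := fun h => h1 (hhalf.2 h)
      rw [Nat.div_eq_of_lt (by omega), Nat.div_eq_of_lt (by omega)]
  rw [← e1, ← e2, hmod, hd]

theorem iterPos_injective (m : ℕ) : ∀ (t : ℕ) (cs : Fin t → Fin m → Bool),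
    Function.Injective (iterPos m t cs)
  | 0, _ => fun _ _ h => h
  | t + 1, cs => fun _ _ h =>
      iterPos_injective m t (fun i => cs i.castSucc) (stepPos_injective m (cs (Fin.last t)) h)

/-- The permutation of positions driven by the bit table `cs`. -/
noncomputable def permOf (m t : ℕ) (cs : Fin t → Fin m → Bool) : Equiv.Perm (Fin (2 * m)) :=
  Equiv.ofBijective (iterPos m t cs)
    (Finite.injective_iff_bijective.1 (iterPos_injective m t cs))

theorem permOf_eq_iff (m t : ℕ) (cs : Fin t → Fin m → Bool) (g : Equiv.Perm (Fin (2 * m))) :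
    permOf m t cs = g ↔ iterPos m t cs = ⇑g := by
  constructor
  · rintro rfl; rfl
  · intro h
    apply Equiv.ext
    intro x
    exact congrFun h x

theorem tv_lower (m t : ℕ) :
    1 - (2 : ℝ) ^ (m * t) / ((2 * m).factorial : ℝ) ≤ tvFromUniform m t := by
  classical
  set Ω := Fin t → Fin m → Bool with hΩ
  set n : ℝ := ((2 * m).factorial : ℝ) with hn
  have hnpos : 0 < n := by rw [hn]; exact_mod_cast Nat.factorial_pos _
  set p : Equiv.Perm (Fin (2 * m)) → ℝ := fun g =>
    Crest.FinProb.uniformProb {cs : Fin t → Fin m → Bool | iterPos m t cs = ⇑g} with hp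
  have hcardΩ : (Fintype.card Ω : ℝ) = 2 ^ (m * t) := by
    simp [hΩ, pow_mul]
  have hΩpos : (0 : ℝ) < Fintype.card Ω := by rw [hcardΩ]; positivity
  have hpform : ∀ g, p g = ((Finset.univ.filter (fun cs : Ω => permOf m t cs = g)).card : ℝ) /
      (Fintype.card Ω : ℝ) := by
    intro g
    simp only [hp, Crest.FinProb.uniformProb]
    congr 2
    apply congrArg
    ext cs
    simp [permOf_eq_iff]
  have hpsum : ∑ g, p g = 1 := by
    simp_rw [hpform]
    rw [← Finset.sum_div, div_eq_one_iff_eq hΩpos.ne', ← Nat.cast_sum]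
    congr 1
    rw [← Finset.card_eq_sum_card_fiberwise (f := permOf m t) (t := Finset.univ)
      (fun _ _ => Finset.mem_coe.2 (Finset.mem_univ _))]
    rfl
  set S : Finset (Equiv.Perm (Fin (2 * m))) := Finset.univ.image (permOf m t) with hS
  have hScard : (S.card : ℝ) ≤ 2 ^ (m * t) := by
    rw [← hcardΩ]
    exact_mod_cast Finset.card_image_le
  have hpzero : ∀ g, g ∉ S → p g = 0 := by
    intro g hg
    rw [hpform, Finset.filter_false_of_mem, Finset.card_empty]
    · simp
    · intro cs _ h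
      exact hg (Finset.mem_image.2 ⟨cs, Finset.mem_univ _, h⟩)
  have hpS : ∑ g ∈ S, p g = 1 := by
    rw [← hpsum]
    exact Finset.sum_subset (Finset.subset_univ _) (fun g _ hg => hpzero g hg)
  have hcardP : (Fintype.card (Equiv.Perm (Fin (2 * m))) : ℝ) = n := by
    rw [Fintype.card_perm, Fintype.card_fin]
  have hsplit : ∑ g, |p g - 1 / n| = ∑ g ∈ S, |p g - 1 / n| + ∑ g ∈ Sᶜ, |p g - 1 / n| :=
    (Finset.sum_add_sum_compl S _).symm
  have h1 : ∑ g ∈ S, (p g - 1 / n) ≤ ∑ g ∈ S, |p g - 1 / n| :=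
    Finset.sum_le_sum fun g _ => le_abs_self _
  have h2 : ∑ g ∈ Sᶜ, (1 / n) ≤ ∑ g ∈ Sᶜ, |p g - 1 / n| := by
    apply Finset.sum_le_sum
    intro g hg
    rw [hpzero g (Finset.mem_compl.1 hg), zero_sub, abs_neg]
    exact le_abs_self _
  have h3 : ∑ g ∈ S, (p g - 1 / n) = 1 - S.card / n := by
    rw [Finset.sum_sub_distrib, hpS, Finset.sum_const, nsmul_eq_mul, mul_one_div]
  have h4 : ∑ _g ∈ Sᶜ, (1 / n) = 1 - S.card / n := by
    rw [Finset.sum_const, nsmul_eq_mul, Finset.card_compl, Nat.cast_sub (Finset.card_le_univ _),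
      hcardP, mul_one_div, sub_div, div_self hnpos.ne']
  have h5 : (S.card : ℝ) / n ≤ 2 ^ (m * t) / n := div_le_div_of_nonneg_right hScard hnpos.le
  have htv : tvFromUniform m t = (1 / 2) * ∑ g, |p g - 1 / n| := rfl
  rw [htv, hsplit]
  rw [h3] at h1
  rw [h4] at h2
  linarith

/-- For a deck of `2 * 2 ^ d` cards and every number `t` of shuffles, the total variation distance between the law of the arrangement of the deck and the uniform law on all arrangements is at least `1 - 2 ^ (2 ^ d * t) / (2 * 2 ^ d)!`. -/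
theorem result (d t : ℕ) :
    1 - (2 : ℝ) ^ (2 ^ d * t) / ((2 * 2 ^ d).factorial : ℝ)
      ≤ Crest.ProbabilityR.Shuffle.tvFromUniform (2 ^ d) t := by
  exact tv_lower (2 ^ d) t

end Crest.Agent.S0223
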