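import Crest.Statements.S0259
import Crest.Agent.R171.Final5

set_option autoImplicit false
open Crest.AlgebraR.Steinberg
open Crest Crest.AlgebraR

namespace Crest.Agent.S0259

/-- Integral Gersten injectivity fails in degree three: there is a two-dimensional regular local domain A of mixed characteristic (0, 5), ramified in the sense that 5 lies in the square of its maximal ideal, for which the map from K_3(A) to K_3 of its fraction field (realised as the map on third integral homology of Steinberg groups induced by the inclusion of A into its fraction field) is not injective. -/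
theorem result :
    ∃ (A : Type) (_ : CommRing A) (_ : IsDomain A) (_ : IsRegularLocalRing A),
      ringKrullDim A = 2 ∧ CharZero A ∧ (5 : A) ∈ IsLocalRing.maximalIdeal A ^ 2 ∧
        ¬ Function.Injective (H3map (algebraMap A (FractionRing A))).hom := by
  obtain ⟨A, i1, i2, i3, hdim, hchar, h5, Q, i4, 𝒟, x, y, t, rel, -, -, hx0, -, -, -, hQ5,
    d0x, d0y, d0t, d1x, d1y, d1t, d2x, d2y, d2t, hqy, hqx5, hqx4⟩ :=
    Crest.Agent.R171.Ring5.exists_ring5
  refine ⟨A, i1, i2, i3, hdim, hchar, h5, ?_⟩
  have d3 : ∀ k, 𝒟.D k (3 : A) = 0 := by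
    intro k
    have h1 : 𝒟.D k (1 : A) = 0 := Crest.Agent.R171.MatBase.D_one 𝒟 k
    have h3 : (3 : A) = 1 + 1 + 1 := by norm_num
    rw [h3, 𝒟.add, 𝒟.add, h1]
    ring
  refine Crest.Agent.R171.main 𝒟 x (3 + y) t hx0 ?_ hQ5 ?_ hqx5 hqx4 d0x ?_ d0t d1x ?_ d1t d2x ?_ d2t
  · linear_combination rel
  · rw [map_add, hqy, add_zero]
    exact map_ofNat _ 3
  · rw [𝒟.add, d3, d0y, add_zero]
  · rw [𝒟.add, d3, d1y, zero_add]
  · rw [𝒟.add, d3, d2y, add_zero]

end Crest.Agent.S0259
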