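import Crest.Statements.S0260
import Crest.Agent.R172.Fin3
import Crest.Agent.R172.T0Fin170
import Crest.Agent.R172.QFin659
import Crest.Agent.R172.STop
import Crest.Agent.R172.SLevA455
import Crest.Agent.R172.SLB562d
import Crest.Agent.R172.SGeo612

set_option autoImplicit false
open Crest.AlgebraR.SpinSaturation
open Crest Crest.AlgebraR

namespace Crest.Agent.S0260

/-- Saturation for Spin(2n), n ≥ 2, with weights in doubled coordinates: for dominant integral weights a, b, c whose sum lies in the root lattice of D_n, every positive integer N, irreducible representations U, V, W of highest weights a, b, c and irreducible representations U', V', W' of highest weights N • a, N • b, N • c, the tensor product U ⊗ V ⊗ W has a nonzero invariant if and only if U' ⊗ V' ⊗ W' has one. -/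
theorem result (n : ℕ) (hn : 2 ≤ n) (a b c : Fin n → ℤ)
    (ha : IsDominantIntegral n a) (hb : IsDominantIntegral n b) (hc : IsDominantIntegral n c)
    (habc : InRootLattice n (a + b + c)) (N : ℕ) (hN : 1 ≤ N)
    (U : Irrep n a) (V : Irrep n b) (W : Irrep n c)
    (U' : Irrep n (N • a)) (V' : Irrep n (N • b)) (W' : Irrep n (N • c)) :
    HasInvariant U V W ↔ HasInvariant U' V' W' := by
  exact Crest.Agent.R172.Ind.saturation_of3 Crest.Agent.R172.T0Fin170.inT00
    (Crest.Agent.R172.STop.inS2_of Crest.Agent.R172.SLevA455.lev1
      (Crest.Agent.R172.SLB562.lev2_of Crest.Agent.R172.SGeo612.geo22))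
    Crest.Agent.R172.QFin.inQ1 n hn a b c ha hb hc habc N hN U V W U' V' W'

end Crest.Agent.S0260
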