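import Crest.Statements.S0276
import Crest.Agent.R184A.Main
import Crest.Agent.R184A.Det

set_option autoImplicit false
open Crest.AlgebraR.GroupRingDet
open Crest Crest.AlgebraR

namespace Crest.Agent.S0276

/-- There are a finitely generated group G, n ≥ 1 and an n × n matrix A over the integral group ring of G, invertible over the rational group ring, whose operator T on ℓ²(G)^n in the left regular representation (pinned by its matrix coefficients in a Hilbert basis indexed by pairs (i, g)) has determinant relative to the von Neumann trace strictly between 0 and 1: half the trace of the spectral logarithm of T⋆T is negative. -/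
theorem result :
    ∃ (G : Type) (_ : Group G) (n : ℕ) (A : Matrix (Fin n) (Fin n) (MonoidAlgebra ℤ G))
      (H : Type) (_ : NormedAddCommGroup H) (_ : InnerProductSpace ℂ H) (_ : CompleteSpace H)
      (b : HilbertBasis (Fin n × G) ℂ H) (T : H →L[ℂ] H),
      Group.FG G ∧ 1 ≤ n ∧ IsUnit (A.map (MonoidAlgebra.mapRingHom G (Int.castRingHom ℚ))) ∧
      IsRegularRepOperator b A T ∧ logDet b T < 0 := by
  have : Fact (Nat.Prime 3) := ⟨Nat.prime_three⟩
  obtain ⟨Γ, iΓ, ⟨P⟩⟩ := Crest.Agent.R184A.exists_paradox 3 (by norm_num)
  exact Crest.Agent.R184A.S0276_of_paradox 3 (by norm_num) Γ P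

end Crest.Agent.S0276
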