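import Crest.Statements.S0324
import Crest.Agent.R211.Cover
import Crest.Agent.R211.Proj

set_option autoImplicit false
open MeasureTheory
open scoped ENNReal
open Crest Crest.GeometryTopology Crest.GeometryTopology.Convex

namespace Crest.Agent.S0324

/-- The regular tetrahedron `K` with vertices `(±1, 0, 0)`, `(0, ±1, √2)` is covered by finitely many cylinders `Bᵢ + ℝ uᵢ`, each with unit direction `uᵢ` and base `Bᵢ` a triangle (convex hull of three points) in the plane `uᵢ^⊥`, whose total base area `∑ᵢ area(Bᵢ)` is smaller, by a positive margin, than half the area of the orthogonal projection of `K` onto `v^⊥` for every unit vector `v`; areas are 2-dimensional Hausdorff measure. -/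
theorem result :
    ∃ (m : ℕ) (u p q r : Fin m → EuclideanSpace ℝ (Fin 3)),
      (∀ i, ‖u i‖ = 1) ∧
      (∀ i, inner ℝ (p i) (u i) = 0 ∧ inner ℝ (q i) (u i) = 0 ∧ inner ℝ (r i) (u i) = 0) ∧
      convexHull ℝ {!₂[1, 0, 0], !₂[-1, 0, 0], !₂[0, 1, Real.sqrt 2], !₂[0, -1, Real.sqrt 2]} ⊆
        ⋃ i, {x : EuclideanSpace ℝ (Fin 3) | ∃ b ∈ convexHull ℝ {p i, q i, r i}, ∃ t : ℝ, x = b + t • u i} ∧
      ∃ δ : ℝ, 0 < δ ∧ ∀ v : EuclideanSpace ℝ (Fin 3), ‖v‖ = 1 →
        ∑ i, (μH[(2 : ℝ)] (convexHull ℝ {p i, q i, r i})).toReal + δ ≤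
          (μH[(2 : ℝ)] ((fun y => y - inner ℝ y v • v) '' convexHull ℝ {!₂[1, 0, 0], !₂[-1, 0, 0], !₂[0, 1, Real.sqrt 2], !₂[0, -1, Real.sqrt 2]})).toReal / 2 := by
  obtain ⟨m, u, p, q, r, -, hu, hperp, hcov, harea⟩ := Crest.Agent.R211.exists_cover
  have hc : (0 : ℝ) < (Crest.Agent.R211.hconst : ℝ) := by
    exact_mod_cast Crest.Agent.R211.hconst_pos
  have hs2 : 0 < Real.sqrt 2 := by positivity
  refine ⟨m, u, p, q, r, hu, hperp, hcov,
    Real.sqrt 2 * (6 / 10 ^ 10) / (Crest.Agent.R211.hconst : ℝ), by positivity, fun v hv => ?_⟩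
  have h1 := Crest.Agent.R211.sqrt2_le_toReal_muHE_proj_K0 v hv
  have h2 : ∑ i, (μHE[2] (convexHull ℝ ({p i, q i, r i} : Set (EuclideanSpace ℝ (Fin 3))))).toReal =
      (Crest.Agent.R211.hconst : ℝ) * ∑ i, (μH[(2 : ℝ)] (convexHull ℝ {p i, q i, r i})).toReal := by
    rw [Finset.mul_sum]
    exact Finset.sum_congr rfl fun i _ => Crest.Agent.R211.muHE_toReal_eq_hconst_mul _
  rw [Crest.Agent.R211.muHE_toReal_eq_hconst_mul] at h1
  rw [h2] at harea
  rw [← mul_le_mul_iff_right₀ hc, mul_add, mul_div_cancel₀ _ hc.ne', mul_div_assoc']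
  linarith

end Crest.Agent.S0324
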