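import Crest.Statements.S0325
import Crest.Agent.R211.Cover
import Crest.Agent.R211.Proj
-- import your own Crest.Agent.* helpers here

set_option autoImplicit false
open MeasureTheory
open scoped ENNReal
open Crest Crest.GeometryTopology Crest.GeometryTopology.Convex

namespace Crest.Agent.S0325

open Crest.Agent.R211

theorem muHE_corner (s : ℝ) (hs : 0 ≤ s) :
    (μHE[2] (convexHull ℝ ({0, !₂[2 * s, 0, 0], !₂[0, 1, 0]} : Set E3))).toReal = s := by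
  rw [muHE_triangle]
  have h1 : gramArea ((!₂[2 * s, 0, 0] : E3) - 0) ((!₂[0, 1, 0] : E3) - 0) = 2 * s := by
    unfold gramArea
    rw [norm_sq_E3, norm_sq_E3, inner_E3]
    simp
    rw [Real.sqrt_sq (by positivity)]
  rw [h1]
  rw [ENNReal.toReal_ofReal (by positivity)]
  ring

/-- Let K be the regular tetrahedron with vertices (±1, 0, 0), (0, ±1, √2); areas are Lebesgue-normalised 2-dimensional Hausdorff measure. (1) The least area of an orthogonal projection of K onto a plane is √2: each map y ↦ y − ⟪y, v⟫ v with ‖v‖ = 1 sends K to a set of area ≥ √2, equal for some v. (2) For every 0 < ε ≤ 5·10⁻⁴, K is covered by 2⌈2/ε²⌉ cylinders Bᵢ + ℝ uᵢ, uᵢ a unit vector, Bᵢ a triangle (convex hull of three points) in uᵢ^⊥, of total area A with ‖A/√2 − 1/2 + 13 ε²/6000‖ ≤ 2 ε⁴. -/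
theorem result :
    ((∀ v : EuclideanSpace ℝ (Fin 3), ‖v‖ = 1 →
        ENNReal.ofReal (Real.sqrt 2) ≤ μHE[2] ((fun y => y - inner ℝ y v • v) '' convexHull ℝ {!₂[1, 0, 0], !₂[-1, 0, 0], !₂[0, 1, Real.sqrt 2], !₂[0, -1, Real.sqrt 2]})) ∧
      ∃ v : EuclideanSpace ℝ (Fin 3), ‖v‖ = 1 ∧
        μHE[2] ((fun y => y - inner ℝ y v • v) '' convexHull ℝ {!₂[1, 0, 0], !₂[-1, 0, 0], !₂[0, 1, Real.sqrt 2], !₂[0, -1, Real.sqrt 2]}) = ENNReal.ofReal (Real.sqrt 2)) ∧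
    ∀ ε : ℝ, 0 < ε → ε ≤ 1 / 2000 →
      ∃ (u p q r : Fin (2 * ⌈2 / ε ^ 2⌉₊) → EuclideanSpace ℝ (Fin 3)),
        (∀ i, ‖u i‖ = 1) ∧
        (∀ i, inner ℝ (p i) (u i) = 0 ∧ inner ℝ (q i) (u i) = 0 ∧ inner ℝ (r i) (u i) = 0) ∧
        convexHull ℝ {!₂[1, 0, 0], !₂[-1, 0, 0], !₂[0, 1, Real.sqrt 2], !₂[0, -1, Real.sqrt 2]} ⊆
          ⋃ i, {x : EuclideanSpace ℝ (Fin 3) | ∃ b ∈ convexHull ℝ {p i, q i, r i}, ∃ t : ℝ, x = b + t • u i} ∧
        abs ((∑ i, (μHE[2] (convexHull ℝ ({p i, q i, r i} : Set (EuclideanSpace ℝ (Fin 3))))).toReal) / Real.sqrt 2 -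
            (1 / 2 - 13 / 6000 * ε ^ 2)) ≤ 2 * ε ^ 4 := by
  refine ⟨⟨muHE_proj_K0_ge, muHE_proj_K0_eq⟩, ?_⟩
  intro ε hε hε2
  obtain ⟨m, u, p, q, r, hm, hu, hperp, hcov, hsum⟩ := exists_cover
  have hN : 16000000 ≤ 2 * ⌈2 / ε ^ 2⌉₊ := by
    have h1 : (8000000 : ℝ) ≤ 2 / ε ^ 2 := by
      rw [le_div_iff₀ (by positivity)]
      nlinarith
    have h2 : ((8000000 : ℕ) : ℝ) ≤ ((⌈2 / ε ^ 2⌉₊ : ℕ) : ℝ) :=
      le_trans (by push_cast; exact h1) (Nat.le_ceil _)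
    have h3 : 8000000 ≤ ⌈2 / ε ^ 2⌉₊ := by exact_mod_cast h2
    omega
  obtain ⟨k, hk⟩ : ∃ k, 2 * ⌈2 / ε ^ 2⌉₊ = m + (k + 1) := ⟨2 * ⌈2 / ε ^ 2⌉₊ - m - 1, by omega⟩
  rw [hk]
  set S : ℝ := ∑ i, (μHE[2] (convexHull ℝ ({p i, q i, r i} : Set E3))).toReal with hS
  set s : ℝ := Real.sqrt 2 * (1 / 2 - 13 / 6000 * ε ^ 2) - S with hs
  have h2pos : 0 < Real.sqrt 2 := by positivity
  have hs0 : 0 ≤ s := by
    have : ε ^ 2 ≤ (1 / 2000) ^ 2 := by gcongr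
    have h3 : (6 : ℝ) / 10 ^ 10 ≥ 13 / 6000 * ε ^ 2 := by
      norm_num at this ⊢
      linarith
    have h4 : Real.sqrt 2 * (1 / 2 - 6 / 10 ^ 10) ≤ Real.sqrt 2 * (1 / 2 - 13 / 6000 * ε ^ 2) := by
      apply mul_le_mul_of_nonneg_left _ h2pos.le
      linarith
    linarith
  refine ⟨Fin.append u (fun _ => !₂[0, 0, 1]), Fin.append p (fun _ => 0),
    Fin.append q (Fin.cons (!₂[2 * s, 0, 0]) (fun _ => 0)),
    Fin.append r (Fin.cons (!₂[0, 1, 0]) (fun _ => 0)), ?_, ?_, ?_, ?_⟩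
  · intro i
    refine Fin.addCases (fun j => ?_) (fun j => ?_) i
    · rw [Fin.append_left]; exact hu j
    · rw [Fin.append_right]
      have : ‖(!₂[0, 0, 1] : E3)‖ ^ 2 = 1 := by
        rw [norm_sq_E3]; simp
      have h0 : 0 ≤ ‖(!₂[0, 0, 1] : E3)‖ := norm_nonneg _
      nlinarith
  · intro i
    refine Fin.addCases (fun j => ?_) (fun j => ?_) i
    · simp only [Fin.append_left]; exact hperp j
    · simp only [Fin.append_right]
      refine Fin.cases ?_ (fun l => ?_) j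
      · simp only [Fin.cons_zero]
        refine ⟨by simp, ?_, ?_⟩ <;> rw [inner_E3] <;> simp
      · simp only [Fin.cons_succ]
        refine ⟨by simp, by simp, by simp⟩
  · intro x hx
    obtain ⟨i, hi⟩ := Set.mem_iUnion.1 (hcov hx)
    refine Set.mem_iUnion.2 ⟨Fin.castAdd (k + 1) i, ?_⟩
    simp only [Fin.append_left]
    exact hi
  · rw [Fin.sum_univ_add]
    simp only [Fin.append_left, Fin.append_right]
    rw [← hS, Fin.sum_univ_succ]
    simp only [Fin.cons_zero, Fin.cons_succ]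
    rw [muHE_corner s hs0]
    have hz : (μHE[2] (convexHull ℝ ({0, 0, 0} : Set E3))).toReal = 0 := by
      rw [muHE_triangle]
      simp [gramArea]
    rw [hz]
    simp only [Finset.sum_const_zero, add_zero]
    have : (S + s) / Real.sqrt 2 - (1 / 2 - 13 / 6000 * ε ^ 2) = 0 := by
      rw [hs]
      field_simp
      ring
    rw [this, abs_zero]
    positivity

end Crest.Agent.S0325
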