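import Crest.Statements.S0327
import Crest.Agent.R211.Tetra
import Crest.Agent.R211.Strips

set_option autoImplicit false
open MeasureTheory
open scoped ENNReal
open Crest Crest.GeometryTopology Crest.GeometryTopology.Convex

namespace Crest.Agent.S0327

/-- Let K ⊂ ℝ³ be a regular tetrahedron (convex hull of four points with equal pairwise distances ℓ > 0); areas are Lebesgue-normalised 2-dimensional Hausdorff measure, π_v y = y − ⟪y, v⟫ v. (1) Finitely many cylinders Bᵢ + ℝ uᵢ, ‖uᵢ‖ = 1, with parallelogram bases Bᵢ = cᵢ + [0,1]aᵢ + [0,1]bᵢ in uᵢ^⊥ cover K, ∑ᵢ area(Bᵢ) being below half of area(π_v K) by a positive margin for all unit v, and ∑ᵢ area(Bᵢ)/area(π_{uᵢ} K) < 1/2. (2) The same with bounded relatively open subsets of the uᵢ^⊥ as bases. -/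
theorem result
    (w : Fin 4 → EuclideanSpace ℝ (Fin 3)) (ℓ : ℝ) (hℓ : 0 < ℓ)
    (hw : ∀ i j, i ≠ j → dist (w i) (w j) = ℓ) :
    (∃ (k : ℕ) (u c a b : Fin k → EuclideanSpace ℝ (Fin 3)),
      (∀ i, ‖u i‖ = 1) ∧
      (∀ i, inner ℝ (c i) (u i) = 0 ∧ inner ℝ (a i) (u i) = 0 ∧ inner ℝ (b i) (u i) = 0) ∧
      convexHull ℝ (Set.range w) ⊆ ⋃ i, {x : EuclideanSpace ℝ (Fin 3) |
        ∃ s ∈ Set.Icc (0 : ℝ) 1, ∃ t ∈ Set.Icc (0 : ℝ) 1, ∃ τ : ℝ, x = c i + s • a i + t • b i + τ • u i} ∧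
      (∃ δ : ℝ, 0 < δ ∧ ∀ v : EuclideanSpace ℝ (Fin 3), ‖v‖ = 1 →
        (∑ i, (μHE[2] {x : EuclideanSpace ℝ (Fin 3) |
            ∃ s ∈ Set.Icc (0 : ℝ) 1, ∃ t ∈ Set.Icc (0 : ℝ) 1, x = c i + s • a i + t • b i}).toReal) + δ ≤
          (μHE[2] ((fun y => y - inner ℝ y v • v) '' convexHull ℝ (Set.range w))).toReal / 2) ∧
      ∑ i, (μHE[2] {x : EuclideanSpace ℝ (Fin 3) |
            ∃ s ∈ Set.Icc (0 : ℝ) 1, ∃ t ∈ Set.Icc (0 : ℝ) 1, x = c i + s • a i + t • b i}).toReal /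
          (μHE[2] ((fun y => y - inner ℝ y (u i) • u i) '' convexHull ℝ (Set.range w))).toReal < 1 / 2) ∧
    (∃ (k : ℕ) (u : Fin k → EuclideanSpace ℝ (Fin 3)) (B : Fin k → Set (EuclideanSpace ℝ (Fin 3))),
      (∀ i, ‖u i‖ = 1) ∧
      (∀ i, Bornology.IsBounded (B i) ∧ ∃ O : Set (EuclideanSpace ℝ (Fin 3)), IsOpen O ∧
        B i = O ∩ {x | inner ℝ x (u i) = 0}) ∧
      convexHull ℝ (Set.range w) ⊆
        ⋃ i, {x : EuclideanSpace ℝ (Fin 3) | ∃ y ∈ B i, ∃ τ : ℝ, x = y + τ • u i} ∧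
      (∃ δ : ℝ, 0 < δ ∧ ∀ v : EuclideanSpace ℝ (Fin 3), ‖v‖ = 1 →
        (∑ i, (μHE[2] (B i)).toReal) + δ ≤
          (μHE[2] ((fun y => y - inner ℝ y v • v) '' convexHull ℝ (Set.range w))).toReal / 2) ∧
      ∑ i, (μHE[2] (B i)).toReal /
          (μHE[2] ((fun y => y - inner ℝ y (u i) • u i) '' convexHull ℝ (Set.range w))).toReal < 1 / 2) := by
  obtain ⟨A, m, hK⟩ := Crest.Agent.R211.exists_similarity w ℓ hℓ hw
  have hr : 0 < ℓ / 2 := by positivity
  have hs2 : 0 < Real.sqrt 2 := by positivity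
  obtain ⟨n, u, p, q, s, hu, hperp, hcov, hsum⟩ :=
    Crest.Agent.R211.exists_cover_similar A m (ℓ / 2) hr
  have hproj : ∀ v : EuclideanSpace ℝ (Fin 3), ‖v‖ = 1 → (ℓ / 2) ^ 2 * Real.sqrt 2 ≤
      (μHE[2] ((fun y => y - inner ℝ y v • v) '' convexHull ℝ (Set.range w))).toReal := by
    intro v hv
    rw [hK]
    exact Crest.Agent.R211.proj_similar_ge A m (ℓ / 2) hr v hv
  rw [← hK] at hcov
  set M : ℝ := (ℓ / 2) ^ 2 * Real.sqrt 2 with hM
  have hMpos : 0 < M := by positivity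
  have hsum' : ∑ i, (μHE[2] (convexHull ℝ ({p i, q i, s i} : Set (EuclideanSpace ℝ (Fin 3))))).toReal
      ≤ M * (1 / 2 - 6 / 10 ^ 10) := by
    refine hsum.trans (le_of_eq ?_)
    rw [hM]; ring
  -- the final two inequalities from a bound on the total area
  have hfin : ∀ (k : ℕ) (u : Fin k → EuclideanSpace ℝ (Fin 3)) (T : Fin k → ℝ),
      (∀ i, ‖u i‖ = 1) → (∀ i, 0 ≤ T i) → ∑ i, T i ≤ M * (1 / 2 - 1 / 10 ^ 10) →
      (∃ δ : ℝ, 0 < δ ∧ ∀ v : EuclideanSpace ℝ (Fin 3), ‖v‖ = 1 →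
        (∑ i, T i) + δ ≤
          (μHE[2] ((fun y => y - inner ℝ y v • v) '' convexHull ℝ (Set.range w))).toReal / 2) ∧
      ∑ i, T i / (μHE[2] ((fun y => y - inner ℝ y (u i) • u i) ''
        convexHull ℝ (Set.range w))).toReal < 1 / 2 := by
    intro k u T hu hT hle
    refine ⟨⟨M / 10 ^ 10, by positivity, fun v hv => ?_⟩, ?_⟩
    · have := hproj v hv
      linarith
    · have h1 : ∑ i, T i / (μHE[2] ((fun y => y - inner ℝ y (u i) • u i) ''
          convexHull ℝ (Set.range w))).toReal ≤ ∑ i, T i / M := by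
        apply Finset.sum_le_sum
        intro i _
        exact div_le_div_of_nonneg_left (hT i) hMpos (hproj _ (hu i))
      rw [← Finset.sum_div] at h1
      refine lt_of_le_of_lt h1 ?_
      rw [div_lt_iff₀ hMpos]
      nlinarith
  constructor
  · -- parallelograms
    set N : ℕ := 10 ^ 10 with hN
    have hNpos : 0 < N := by norm_num [hN]
    let e : Fin (n * N) ≃ Fin n × Fin N := finProdFinEquiv.symm
    have hsumN : ∀ f : Fin n × Fin N → ℝ, ∑ i : Fin (n * N), f (e i) = ∑ i, ∑ j, f (i, j) := by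
      intro f
      rw [Equiv.sum_comp e f, Fintype.sum_prod_type]
    let c' : Fin n × Fin N → EuclideanSpace ℝ (Fin 3) := fun x =>
      p x.1 + (((x.2 : ℕ) : ℝ) / (N : ℝ)) • (q x.1 - p x.1)
    let a' : Fin n × Fin N → EuclideanSpace ℝ (Fin 3) := fun x =>
      (1 / (N : ℝ)) • (q x.1 - p x.1)
    let b' : Fin n × Fin N → EuclideanSpace ℝ (Fin 3) := fun x =>
      (1 - ((x.2 : ℕ) : ℝ) / (N : ℝ)) • (s x.1 - p x.1)
    have htot : ∑ i : Fin (n * N), (μHE[2] {x : EuclideanSpace ℝ (Fin 3) |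
        ∃ s ∈ Set.Icc (0 : ℝ) 1, ∃ t ∈ Set.Icc (0 : ℝ) 1,
          x = c' (e i) + s • a' (e i) + t • b' (e i)}).toReal ≤ M * (1 / 2 - 1 / 10 ^ 10) := by
      rw [hsumN (fun z => (μHE[2] {x : EuclideanSpace ℝ (Fin 3) |
        ∃ s ∈ Set.Icc (0 : ℝ) 1, ∃ t ∈ Set.Icc (0 : ℝ) 1,
          x = c' z + s • a' z + t • b' z}).toReal)]
      have h1 : ∀ i : Fin n, ∑ j : Fin N, (μHE[2] {x : EuclideanSpace ℝ (Fin 3) |
        ∃ s ∈ Set.Icc (0 : ℝ) 1, ∃ t ∈ Set.Icc (0 : ℝ) 1,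
          x = c' (i, j) + s • a' (i, j) + t • b' (i, j)}).toReal =
          (1 + 1 / (N : ℝ)) * (μHE[2] (convexHull ℝ ({p i, q i, s i} :
            Set (EuclideanSpace ℝ (Fin 3))))).toReal := fun i =>
        Crest.Agent.R211.sum_strip_area (p i) (q i) (s i) N hNpos
      rw [Finset.sum_congr rfl (fun i _ => h1 i), ← Finset.mul_sum]
      have hNR : (N : ℝ) = 10 ^ 10 := by norm_num [hN]
      rw [hNR]
      have h2 := mul_le_mul_of_nonneg_left hsum' (show (0 : ℝ) ≤ 1 + 1 / 10 ^ 10 by norm_num)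
      refine h2.trans ?_
      nlinarith
    obtain ⟨hA, hB⟩ := hfin (n * N) (fun i => u (e i).1) _ (fun i => hu _)
      (fun i => ENNReal.toReal_nonneg) htot
    refine ⟨n * N, fun i => u (e i).1, fun i => c' (e i), fun i => a' (e i), fun i => b' (e i),
      fun i => hu _, ?_, ?_, hA, hB⟩
    · intro i
      obtain ⟨h1, h2, h3⟩ := hperp (e i).1
      refine ⟨?_, ?_, ?_⟩
      · simp only [c', inner_add_left, real_inner_smul_left, inner_sub_left, h1, h2]
        ring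
      · simp only [a', real_inner_smul_left, inner_sub_left, h1, h2]
        ring
      · simp only [b', real_inner_smul_left, inner_sub_left, h1, h3]
        ring
    · intro x hx
      obtain ⟨i, b, hb, t, hxt⟩ := Set.mem_iUnion.mp (hcov hx)
      obtain ⟨j, σ, hσ, τ, hτ, hbj⟩ :=
        Crest.Agent.R211.triangle_subset_strips (p i) (q i) (s i) N hNpos b hb
      refine Set.mem_iUnion.mpr ⟨e.symm (i, j), ?_⟩
      simp only [Equiv.apply_symm_apply]
      exact ⟨σ, hσ, τ, hτ, t, by rw [hxt, hbj]⟩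
  · -- open bases
    have hη : 0 < M / 10 ^ 10 / (n + 1) := by positivity
    have hex : ∀ i : Fin n, ∃ B : Set (EuclideanSpace ℝ (Fin 3)),
        convexHull ℝ {p i, q i, s i} ⊆ B ∧ Bornology.IsBounded B ∧
        (∃ O : Set (EuclideanSpace ℝ (Fin 3)), IsOpen O ∧ B = O ∩ {x | inner ℝ x (u i) = 0}) ∧
        (μHE[2] B).toReal ≤ (μHE[2] (convexHull ℝ ({p i, q i, s i} :
          Set (EuclideanSpace ℝ (Fin 3))))).toReal + M / 10 ^ 10 / (n + 1) := by
      intro i
      refine Crest.Agent.R211.exists_open_base (u i) (hu i) _ ?_ ?_ _ hη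
      · exact (Set.toFinite _).isCompact_convexHull ℝ
      · obtain ⟨h1, h2, h3⟩ := hperp i
        intro x hx
        have hsub : convexHull ℝ ({p i, q i, s i} : Set (EuclideanSpace ℝ (Fin 3))) ⊆
            {x | inner ℝ x (u i) = 0} := by
          apply convexHull_min
          · intro y hy
            simp only [Set.mem_insert_iff, Set.mem_singleton_iff] at hy
            rcases hy with rfl | rfl | rfl
            · exact h1
            · exact h2
            · exact h3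
          · intro y hy z hz a b _ _ _
            have hy' : inner ℝ y (u i) = 0 := hy
            have hz' : inner ℝ z (u i) = 0 := hz
            change inner ℝ (a • y + b • z) (u i) = 0
            rw [inner_add_left, real_inner_smul_left, real_inner_smul_left, hy', hz']
            ring
        exact hsub hx
    choose B hB1 hB2 hB3 hB4 using hex
    have htot : ∑ i : Fin n, (μHE[2] (B i)).toReal ≤ M * (1 / 2 - 1 / 10 ^ 10) := by
      have h1 : ∑ i : Fin n, (μHE[2] (B i)).toReal ≤ ∑ i : Fin n,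
          ((μHE[2] (convexHull ℝ ({p i, q i, s i} :
            Set (EuclideanSpace ℝ (Fin 3))))).toReal + M / 10 ^ 10 / (n + 1)) :=
        Finset.sum_le_sum fun i _ => hB4 i
      rw [Finset.sum_add_distrib, Finset.sum_const, Finset.card_univ, Fintype.card_fin,
        nsmul_eq_mul] at h1
      have h2 : (n : ℝ) * (M / 10 ^ 10 / (n + 1)) ≤ M / 10 ^ 10 := by
        have hn1 : (0 : ℝ) < (n : ℝ) + 1 := by positivity
        rw [mul_div_assoc', div_le_iff₀ hn1]
        have : 0 < M / 10 ^ 10 := by positivity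
        nlinarith
      linarith
    obtain ⟨hA, hB⟩ := hfin n u _ hu (fun i => ENNReal.toReal_nonneg) htot
    refine ⟨n, u, B, hu, fun i => ⟨hB2 i, hB3 i⟩, ?_, hA, hB⟩
    intro x hx
    obtain ⟨i, b, hb, t, hxt⟩ := Set.mem_iUnion.mp (hcov hx)
    exact Set.mem_iUnion.mpr ⟨i, b, hB1 i hb, t, hxt⟩

end Crest.Agent.S0327
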