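import Crest.Statements.S0328
import Crest.Agent.R211.SweepAnalytic

set_option autoImplicit false
open MeasureTheory
open scoped ENNReal
open Crest Crest.GeometryTopology Crest.GeometryTopology.Convex

namespace Crest.Agent.S0328

open Crest.Agent.R211

/-- Unit e; a, b, p₀ ∈ e^⊥, a, b independent; α < β; L > 0; R ≥ 0, λ both continuous on [α, β]; w(t) ∈ e^⊥, w′ = λ(t)(a + tb). S = {p₀ + ρ(a + t b) + s(e + w t) : α ≤ t ≤ β, 0 ≤ ρ ≤ R t, ‖s‖ ≤ L}; A = κ ∫_α^β R²/(2√(1 + ‖w‖²)), κ = area spanned by a, b. For η > 0 a δ > 0 makes each partition t₀ < … < t_N of [α, β] of mesh ≤ δ, tags cᵢ, admit N cylinders (axes e + w(cᵢ), nondegenerate triangle bases) covering S, total area within η of A; same for S's pieces tᵢ ≤ t ≤ tᵢ₊₁ projected along these axes. -/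
theorem result
    (e a b p₀ : EuclideanSpace ℝ (Fin 3)) (he : ‖e‖ = 1)
    (ha : inner ℝ a e = 0) (hb : inner ℝ b e = 0) (hp₀ : inner ℝ p₀ e = 0)
    (hab : LinearIndependent ℝ ![a, b]) (L : ℝ) (hL : 0 < L) (α β : ℝ) (hαβ : α < β)
    (R : ℝ → ℝ) (hR : ContinuousOn R (Set.Icc α β)) (hR0 : ∀ t ∈ Set.Icc α β, 0 ≤ R t)
    (w : ℝ → EuclideanSpace ℝ (Fin 3)) (hw : ∀ t ∈ Set.Icc α β, inner ℝ (w t) e = 0)
    (lam : ℝ → ℝ) (hlam : ContinuousOn lam (Set.Icc α β))
    (hw' : ∀ t ∈ Set.Icc α β, HasDerivWithinAt w (lam t • (a + t • b)) (Set.Icc α β) t)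
    (η : ℝ) (hη : 0 < η) :
    ∃ δ : ℝ, 0 < δ ∧ ∀ (N : ℕ) (t : Fin (N + 1) → ℝ) (c : Fin N → ℝ),
      StrictMono t → t 0 = α → t (Fin.last N) = β →
      (∀ i : Fin N, t i.succ - t i.castSucc ≤ δ) →
      (∀ i : Fin N, t i.castSucc ≤ c i ∧ c i ≤ t i.succ) →
      (∃ (p q r : Fin N → EuclideanSpace ℝ (Fin 3)),
        (∀ i, inner ℝ (p i) (e + w (c i)) = 0 ∧ inner ℝ (q i) (e + w (c i)) = 0 ∧
          inner ℝ (r i) (e + w (c i)) = 0) ∧
        (∀ i, AffineIndependent ℝ ![p i, q i, r i]) ∧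
        {x : EuclideanSpace ℝ (Fin 3) | ∃ τ ∈ Set.Icc α β, ∃ ρ ∈ Set.Icc 0 (R τ), ∃ s : ℝ, abs s ≤ L ∧
            x = p₀ + ρ • (a + τ • b) + s • (e + w τ)} ⊆
          ⋃ i, {x : EuclideanSpace ℝ (Fin 3) | ∃ y ∈ convexHull ℝ {p i, q i, r i}, ∃ σ : ℝ,
            x = y + σ • (e + w (c i))} ∧
        abs ((∑ i, (μHE[2] (convexHull ℝ ({p i, q i, r i} : Set (EuclideanSpace ℝ (Fin 3))))).toReal) -
            Real.sqrt (‖a‖ ^ 2 * ‖b‖ ^ 2 - inner ℝ a b ^ 2) *
              ∫ τ in α..β, R τ ^ 2 / (2 * Real.sqrt (1 + ‖w τ‖ ^ 2))) ≤ η) ∧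
      abs ((∑ i : Fin N, (μHE[2] ((fun y => y - (inner ℝ y (e + w (c i)) / ‖e + w (c i)‖ ^ 2) • (e + w (c i))) ''
            {x : EuclideanSpace ℝ (Fin 3) | ∃ τ ∈ Set.Icc (t i.castSucc) (t i.succ), ∃ ρ ∈ Set.Icc 0 (R τ),
              ∃ s : ℝ, abs s ≤ L ∧ x = p₀ + ρ • (a + τ • b) + s • (e + w τ)})).toReal) -
          Real.sqrt (‖a‖ ^ 2 * ‖b‖ ^ 2 - inner ℝ a b ^ 2) *
            ∫ τ in α..β, R τ ^ 2 / (2 * Real.sqrt (1 + ‖w τ‖ ^ 2))) ≤ η := by
  -- constants
  have hκpos : 0 < gramArea a b := gramArea_pos_of_linearIndependent hab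
  have hκeq : Real.sqrt (‖a‖ ^ 2 * ‖b‖ ^ 2 - inner ℝ a b ^ 2) = gramArea a b := rfl
  rw [hκeq]
  have hwc : ContinuousOn w (Set.Icc α β) := fun z hz => (hw' z hz).continuousWithinAt
  obtain ⟨M, hM⟩ := isCompact_Icc.exists_bound_of_continuousOn hlam
  have hα : α ∈ Set.Icc α β := ⟨le_rfl, hαβ.le⟩
  have hM0 : 0 ≤ M := (norm_nonneg _).trans (hM α hα)
  have hM' : ∀ t ∈ Set.Icc α β, |lam t| ≤ M := fun t ht => by
    have := hM t ht; rwa [Real.norm_eq_abs] at this
  obtain ⟨C, hCpos, hCL⟩ : ∃ C : ℝ, 0 < C ∧ L * M ≤ C :=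
    ⟨L * M + 1, by positivity, by linarith⟩
  obtain ⟨δ, hδ, hmain⟩ := sweep_analytic hκpos hαβ hR hR0 (W := fun t => ‖w t‖ ^ 2)
    (hwc.norm.pow 2) (fun t => by positivity) hCpos hη
  refine ⟨δ, hδ, ?_⟩
  intro N t c ht h0 hN hmesh hc
  obtain ⟨Rm, rm, hRm0, hRm, hrm0, hrR, hrm, hest⟩ := hmain N t c ht h0 hN hmesh hc
  have hlt : ∀ i : Fin N, t i.castSucc < t i.succ := fun i => ht (Fin.castSucc_lt_succ)
  have hlo : ∀ i : Fin N, α ≤ t i.castSucc := fun i => by
    rw [← h0]; exact ht.monotone (Fin.zero_le _)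
  have hhi : ∀ i : Fin N, t i.succ ≤ β := fun i => by
    rw [← hN]; exact ht.monotone (Fin.le_last _)
  have hcm : ∀ i : Fin N, c i ∈ Set.Icc (t i.castSucc) (t i.succ) := fun i => hc i
  have hcm' : ∀ i : Fin N, c i ∈ Set.Icc α β := fun i =>
    Set.Icc_subset_Icc (hlo i) (hhi i) (hcm i)
  have hwcp : ∀ i : Fin N, inner ℝ (w (c i)) e = 0 := fun i => hw _ (hcm' i)
  -- generic fan triangle area
  have hfan : ∀ i, ∀ V : E3, ∀ D : ℝ,
      μHE[2] (proj (unitv (e + w (c i))) '' convexHull ℝ {V, V + D • (a + t i.castSucc • b),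
        V + D • (a + t i.succ • b)}) =
      ENNReal.ofReal (gramArea a b * (D ^ 2 * (t i.succ - t i.castSucc) /
        (2 * Real.sqrt (1 + ‖w (c i)‖ ^ 2)))) := by
    intro i V D
    rw [image_proj_convexHull, muHE_triangle, muHE_fan_triangle he ha hb (hwcp i) V (hlt i).le]
    congr 1
    have h2 : 0 < Real.sqrt (1 + ‖w (c i)‖ ^ 2) := by positivity
    field_simp
  have hnn : ∀ i, ∀ D : ℝ, 0 ≤ gramArea a b * (D ^ 2 * (t i.succ - t i.castSucc) /
        (2 * Real.sqrt (1 + ‖w (c i)‖ ^ 2))) := by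
    intro i D
    have h1 : 0 < t i.succ - t i.castSucc := by linarith [hlt i]
    positivity
  have hpiece : ∀ i, ∀ x ∈ sweepPiece e a b p₀ w R L (t i.castSucc) (t i.succ),
      ∃ X ∈ convexHull ℝ {apex a b p₀ (t i.castSucc) (t i.succ) C,
        apex a b p₀ (t i.castSucc) (t i.succ) C +
          (Rm i + 3 * C * (t i.succ - t i.castSucc)) • (a + t i.castSucc • b),
        apex a b p₀ (t i.castSucc) (t i.succ) C +
          (Rm i + 3 * C * (t i.succ - t i.castSucc)) • (a + t i.succ • b)},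
        ∃ s : ℝ, x = X + s • (e + w (c i)) := by
    intro i x hx
    exact sweepPiece_subset hlam hw' hM' (hlo i) (hhi i) (hlt i) (hcm i) hL (hRm i) (hRm0 i)
      hCpos hCL x hx
  have hlu : ∀ i, gramArea a b * (rm i ^ 2 * (t i.succ - t i.castSucc) /
        (2 * Real.sqrt (1 + ‖w (c i)‖ ^ 2))) ≤
      gramArea a b * ((Rm i + 3 * C * (t i.succ - t i.castSucc)) ^ 2 *
        (t i.succ - t i.castSucc) / (2 * Real.sqrt (1 + ‖w (c i)‖ ^ 2))) := by
    intro i
    have h1 : 0 < t i.succ - t i.castSucc := by linarith [hlt i]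
    have h2 : rm i ≤ Rm i + 3 * C * (t i.succ - t i.castSucc) := by
      have := hrR i
      have : 0 < 3 * C * (t i.succ - t i.castSucc) := by positivity
      linarith [hrR i]
    have h3 := hrm0 i
    gcongr
  constructor
  · refine ⟨fun i => proj (unitv (e + w (c i))) (apex a b p₀ (t i.castSucc) (t i.succ) C),
      fun i => proj (unitv (e + w (c i))) (apex a b p₀ (t i.castSucc) (t i.succ) C +
          (Rm i + 3 * C * (t i.succ - t i.castSucc)) • (a + t i.castSucc • b)),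
      fun i => proj (unitv (e + w (c i))) (apex a b p₀ (t i.castSucc) (t i.succ) C +
          (Rm i + 3 * C * (t i.succ - t i.castSucc)) • (a + t i.succ • b)), ?_, ?_, ?_, ?_⟩
    · intro i
      exact ⟨inner_proj_unitv he (hwcp i) _, inner_proj_unitv he (hwcp i) _,
        inner_proj_unitv he (hwcp i) _⟩
    · intro i
      apply affineIndependent_of_gramArea_ne_zero
      rw [muHE_fan_triangle he ha hb (hwcp i) _ (hlt i).le]
      have h1 : 0 < t i.succ - t i.castSucc := by linarith [hlt i]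
      have h2 := hRm0 i
      positivity
    · rintro x ⟨τ, hτ, ρ, hρ, s, hs, hx⟩
      -- find the piece containing τ
      have hex : ∃ i : Fin N, τ ∈ Set.Icc (t i.castSucc) (t i.succ) := by
        by_contra hcon
        push Not at hcon
        have hind : ∀ k : Fin (N + 1), t k ≤ τ := by
          intro k
          induction k using Fin.induction with
          | zero => rw [h0]; exact hτ.1
          | succ i ih =>
            by_contra hlt'
            exact hcon i ⟨ih, (not_le.mp hlt').le⟩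
        have h1 := hind (Fin.last N)
        rw [hN] at h1
        have h2 : τ = β := le_antisymm hτ.2 h1
        have hNpos : 0 < N := by
          rcases Nat.eq_zero_or_pos N with h3 | h3
          · subst h3
            exfalso
            rw [show (Fin.last 0 : Fin (0 + 1)) = 0 from rfl] at hN
            rw [h0] at hN; linarith
          · exact h3
        obtain ⟨n, rfl⟩ : ∃ n, N = n + 1 := ⟨N - 1, by omega⟩
        apply hcon (Fin.last n)
        have h4 : t (Fin.last n).succ = β := by rw [← hN]; rfl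
        exact ⟨hind _, by rw [h4, h2]⟩
      obtain ⟨i, hi⟩ := hex
      rw [Set.mem_iUnion]
      refine ⟨i, ?_⟩
      obtain ⟨X, hX, s', hxX⟩ := hpiece i x ⟨τ, hi, ρ, hρ, s, hs, hx⟩
      obtain ⟨σ, hσ⟩ := eq_proj_unitv_add (e + w (c i)) X
      refine ⟨proj (unitv (e + w (c i))) X, ?_, σ + s', ?_⟩
      · rw [← image_proj_convexHull]
        exact Set.mem_image_of_mem _ hX
      · rw [hxX, add_smul, ← add_assoc, ← hσ]
    · apply hest
      · intro i
        rw [← image_proj_convexHull, hfan, ENNReal.toReal_ofReal (hnn i _)]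
        exact hlu i
      · intro i
        rw [← image_proj_convexHull, hfan, ENNReal.toReal_ofReal (hnn i _)]
  · have hset : ∀ i : Fin N,
        (fun y : E3 => y - (inner ℝ y (e + w (c i)) / ‖e + w (c i)‖ ^ 2) • (e + w (c i))) ''
            {x : EuclideanSpace ℝ (Fin 3) | ∃ τ ∈ Set.Icc (t i.castSucc) (t i.succ),
              ∃ ρ ∈ Set.Icc 0 (R τ), ∃ s : ℝ, abs s ≤ L ∧
                x = p₀ + ρ • (a + τ • b) + s • (e + w τ)} =
        proj (unitv (e + w (c i))) '' sweepPiece e a b p₀ w R L (t i.castSucc) (t i.succ) := by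
      intro i
      apply Set.image_congr
      intro y _
      exact proj_normalise _ _ (norm_add_perp_pos he (hwcp i))
    have hupper : ∀ i : Fin N,
        μHE[2] (proj (unitv (e + w (c i))) '' sweepPiece e a b p₀ w R L (t i.castSucc) (t i.succ)) ≤
        ENNReal.ofReal (gramArea a b * ((Rm i + 3 * C * (t i.succ - t i.castSucc)) ^ 2 *
        (t i.succ - t i.castSucc) / (2 * Real.sqrt (1 + ‖w (c i)‖ ^ 2)))) := by
      intro i
      rw [← hfan i (apex a b p₀ (t i.castSucc) (t i.succ) C)]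
      apply measure_mono
      rintro _ ⟨x, hx, rfl⟩
      obtain ⟨X, hX, s', hxX⟩ := hpiece i x hx
      refine ⟨X, hX, ?_⟩
      rw [hxX]
      exact (proj_unitv_add_smul he (hwcp i) X s').symm
    have hlower : ∀ i : Fin N,
        ENNReal.ofReal (gramArea a b * (rm i ^ 2 *
        (t i.succ - t i.castSucc) / (2 * Real.sqrt (1 + ‖w (c i)‖ ^ 2)))) ≤
        μHE[2] (proj (unitv (e + w (c i))) '' sweepPiece e a b p₀ w R L (t i.castSucc) (t i.succ)) := by
      intro i
      rw [← hfan i p₀]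
      apply measure_mono
      apply Set.image_mono
      exact fan_subset_sweepPiece (hlt i) hL (hrm0 i) (hrm i)
    apply hest
    · intro i
      rw [hset i]
      have hne := ne_top_of_le_ne_top ENNReal.ofReal_ne_top (hupper i)
      have := ENNReal.toReal_mono hne (hlower i)
      rwa [ENNReal.toReal_ofReal (hnn i _)] at this
    · intro i
      rw [hset i]
      exact ENNReal.toReal_le_of_le_ofReal (hnn i _) (hupper i)

end Crest.Agent.S0328
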