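import Crest.Statements.S0329
import Crest.Agent.R211.OpenBase
import Crest.Agent.S0326

set_option autoImplicit false
open MeasureTheory
open scoped ENNReal
open Crest Crest.GeometryTopology Crest.GeometryTopology.Convex

namespace Crest.Agent.S0329

open Crest.Agent.R211

/-- embedding of the plane `x = 0`, second coordinate scaled by `h` -/
noncomputable def emb (h : ℝ) (p : E2) : E3 := !₂[0, p 0, h * p 1]

/-- direction of the cylinder with velocity `g` -/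
noncomputable def dir (h : ℝ) (g : E2) : E3 := !₂[1, g 0, h * g 1]

theorem norm_dir (h : ℝ) (g : E2) : ‖dir h g‖ = Real.sqrt (1 + (g 0) ^ 2 + h ^ 2 * (g 1) ^ 2) := by
  rw [← Real.sqrt_sq (norm_nonneg (dir h g)), norm_sq_E3]
  congr 1
  simp [dir]; ring

theorem norm_dir_pos (h : ℝ) (g : E2) : 0 < ‖dir h g‖ := by
  rw [norm_dir]; positivity

theorem norm_sq_E2 (a : E2) : ‖a‖ ^ 2 = a 0 ^ 2 + a 1 ^ 2 := by
  rw [EuclideanSpace.norm_sq_eq, Fin.sum_univ_two]; simp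

theorem det_square {a b : E2} (hab : ‖b‖ = ‖a‖) (h0 : inner ℝ a b = 0) :
    |a 0 * b 1 - a 1 * b 0| = ‖a‖ ^ 2 := by
  have h1 : a 0 * b 0 + a 1 * b 1 = 0 := by
    have : inner ℝ a b = a 0 * b 0 + a 1 * b 1 := by
      simp [PiLp.inner_apply, Fin.sum_univ_two, mul_comm]
    rw [← this]; exact h0
  have h2 : (a 0 * b 1 - a 1 * b 0) ^ 2 = (‖a‖ ^ 2) ^ 2 := by
    have hb : ‖b‖ ^ 2 = ‖a‖ ^ 2 := by rw [hab]
    have : (a 0 * b 1 - a 1 * b 0) ^ 2 = ‖a‖ ^ 2 * ‖b‖ ^ 2 - (a 0 * b 0 + a 1 * b 1) ^ 2 := by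
      rw [norm_sq_E2, norm_sq_E2]; ring
    rw [this, h1, hb]; ring
  rw [← Real.sqrt_sq_eq_abs, h2, Real.sqrt_sq (sq_nonneg _)]

/-- the flat (non-orthogonal) base -/
def flat (C A B : E3) : Set E3 :=
  {x : E3 | ∃ s ∈ Set.Icc (0 : ℝ) 1, ∃ t ∈ Set.Icc (0 : ℝ) 1, x = C + s • A + t • B}

theorem image_flat (f : E3 →ₗ[ℝ] E3) (C A B : E3) : f '' flat C A B = flat (f C) (f A) (f B) := by
  ext x
  constructor
  · rintro ⟨_, ⟨s, hs, t, ht, rfl⟩, rfl⟩
    exact ⟨s, hs, t, ht, by simp⟩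
  · rintro ⟨s, hs, t, ht, rfl⟩
    exact ⟨_, ⟨s, hs, t, ht, rfl⟩, by simp⟩

theorem isCompact_flat (C A B : E3) : IsCompact (flat C A B) := by
  have h : flat C A B = (fun q : ℝ × ℝ => C + q.1 • A + q.2 • B) ''
      (Set.Icc (0 : ℝ) 1 ×ˢ Set.Icc (0 : ℝ) 1) := by
    ext x
    constructor
    · rintro ⟨s, hs, t, ht, rfl⟩
      exact ⟨(s, t), ⟨hs, ht⟩, rfl⟩
    · rintro ⟨⟨s, t⟩, ⟨hs, ht⟩, rfl⟩
      exact ⟨s, hs, t, ht, rfl⟩
  rw [h]
  exact (isCompact_Icc.prod isCompact_Icc).image (by fun_prop)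

/-- Let h, M > 0, D ⊂ ℝ² be compact with Lebesgue-null boundary, and V : ℝ² → ℝ² be C¹ on an open set containing D with tr DV(p) = 0 and −1/M² < det DV(p) < 0 for p ∈ D. For every ε > 0 the set of points (x, p₁ + x V₁(p), h (p₂ + x V₂(p))) ∈ ℝ³ with p ∈ D, −M ≤ x ≤ M is covered by finitely many cylinders Bᵢ + ℝ uᵢ, ‖uᵢ‖ = 1, with bases Bᵢ bounded relatively open subsets of the planes uᵢ^⊥ and ∑ᵢ area(Bᵢ) ≤ h ∫_D (1 + V₁² + h² V₂²)^(−1/2) + ε (areas: normalised 2-dimensional Hausdorff measure). -/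
theorem result
    (h M : ℝ) (hh : 0 < h) (hM : 0 < M) (D : Set (EuclideanSpace ℝ (Fin 2))) (hD : IsCompact D)
    (hbd : volume (frontier D) = 0)
    (V : EuclideanSpace ℝ (Fin 2) → EuclideanSpace ℝ (Fin 2)) (U : Set (EuclideanSpace ℝ (Fin 2)))
    (hU : IsOpen U) (hDU : D ⊆ U) (hV : ContDiffOn ℝ 1 V U)
    (htr : ∀ p ∈ D, LinearMap.trace ℝ _ (fderiv ℝ V p).toLinearMap = 0)
    (hdet : ∀ p ∈ D, -(M ^ 2)⁻¹ < LinearMap.det (fderiv ℝ V p).toLinearMap ∧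
      LinearMap.det (fderiv ℝ V p).toLinearMap < 0)
    (ε : ℝ) (hε : 0 < ε) :
    ∃ (k : ℕ) (u : Fin k → EuclideanSpace ℝ (Fin 3)) (B : Fin k → Set (EuclideanSpace ℝ (Fin 3))),
      (∀ i, ‖u i‖ = 1) ∧
      (∀ i, Bornology.IsBounded (B i) ∧ ∃ O : Set (EuclideanSpace ℝ (Fin 3)), IsOpen O ∧
        B i = O ∩ {x | inner ℝ x (u i) = 0}) ∧
      {z : EuclideanSpace ℝ (Fin 3) | ∃ p ∈ D, ∃ x : ℝ, abs x ≤ M ∧
          z = !₂[x, p 0 + x * V p 0, h * (p 1 + x * V p 1)]} ⊆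
        ⋃ i, {z : EuclideanSpace ℝ (Fin 3) | ∃ y ∈ B i, ∃ τ : ℝ, z = y + τ • u i} ∧
      ∑ i, (μHE[2] (B i)).toReal ≤
        h * (∫ p in D, 1 / Real.sqrt (1 + (V p 0) ^ 2 + h ^ 2 * (V p 1) ^ 2)) + ε := by
  obtain ⟨k, c, a, b, g, hsq, hcov, hsum⟩ := Crest.Agent.S0326.result D hD V U hU hDU hV M h hM hh
    htr (fun p hp => ⟨(hdet p hp).1, (hdet p hp).2.le⟩) (ε / (2 * h)) (by positivity)
  -- directions and bases
  let u : Fin k → E3 := fun i => ‖dir h (g i)‖⁻¹ • dir h (g i)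
  have hu : ∀ i, ‖u i‖ = 1 := fun i => norm_unit (norm_dir_pos h (g i))
  let T : Fin k → Set E3 := fun i => proj (u i) '' flat (emb h (c i)) (emb h (a i)) (emb h (b i))
  have hTc : ∀ i, IsCompact (T i) := fun i =>
    (isCompact_flat _ _ _).image (proj (u i)).continuous_of_finiteDimensional
  have hTperp : ∀ i, ∀ x ∈ T i, inner ℝ x (u i) = 0 := by
    rintro i _ ⟨y, -, rfl⟩
    exact inner_proj (hu i) y
  have hTarea : ∀ i, (μHE[2] (T i)).toReal =
      h * (‖a i‖ ^ 2 / Real.sqrt (1 + (g i 0) ^ 2 + h ^ 2 * (g i 1) ^ 2)) := by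
    intro i
    have h1 : T i = flat (proj (u i) (emb h (c i))) (proj (u i) (emb h (a i)))
        (proj (u i) (emb h (b i))) := image_flat _ _ _ _
    rw [h1, flat, muHE_parallelogram, gramArea_proj (hu i), ENNReal.toReal_ofReal (abs_nonneg _)]
    have h2 : det3 (emb h (a i)) (emb h (b i)) (u i) =
        ‖dir h (g i)‖⁻¹ * (h * (a i 0 * b i 1 - a i 1 * b i 0)) := by
      simp only [det3, emb, u, dir, PiLp.smul_apply, smul_eq_mul, Matrix.cons_val_zero,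
        Matrix.cons_val_one, Matrix.cons_val]
      ring
    rw [h2, abs_mul, abs_mul, det_square (hsq i).2.1 (hsq i).2.2, abs_of_pos hh,
      abs_of_pos (inv_pos.mpr (norm_dir_pos h (g i))), norm_dir]
    ring
  have hη : 0 < ε / (2 * (k + 1)) := by positivity
  choose B hTB hBb hBo hBarea using fun i =>
    exists_open_base (u i) (hu i) (T i) (hTc i) (hTperp i) (ε / (2 * (k + 1))) hη
  refine ⟨k, u, B, hu, fun i => ⟨hBb i, hBo i⟩, ?_, ?_⟩
  · rintro z ⟨p, hp, x, hx, rfl⟩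
    have hmem := hcov (show ((x, p + x • V p) : ℝ × E2) ∈ _ from ⟨p, hp, hx, rfl⟩)
    rw [Set.mem_iUnion] at hmem ⊢
    obtain ⟨i, s, hs, t, ht, he⟩ := hmem
    refine ⟨i, ?_⟩
    have hz : (!₂[x, p 0 + x * V p 0, h * (p 1 + x * V p 1)] : E3) ∈
        {z : E3 | ∃ y ∈ flat (emb h (c i)) (emb h (a i)) (emb h (b i)), ∃ τ : ℝ, z = y + τ • u i} := by
      refine ⟨_, ⟨s, hs, t, ht, rfl⟩, x * ‖dir h (g i)‖, ?_⟩
      have hn := (norm_dir_pos h (g i)).ne'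
      have e1 : (x * ‖dir h (g i)‖) • u i = x • dir h (g i) := by
        simp only [u]
        rw [smul_smul, mul_assoc, mul_inv_cancel₀ hn, mul_one]
      rw [e1]
      have he0 := congrArg (fun w : E2 => w 0) he
      have he1 := congrArg (fun w : E2 => w 1) he
      simp only [PiLp.add_apply, PiLp.smul_apply, smul_eq_mul] at he0 he1
      ext j
      fin_cases j
      · simp [emb, dir]
      · simp [emb, dir]
        linarith
      · simp [emb, dir]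
        rw [he1]; ring
    rw [← cylinder_proj] at hz
    obtain ⟨y, hy, τ, hzy⟩ := hz
    exact ⟨y, hTB i hy, τ, hzy⟩
  · calc ∑ i, (μHE[2] (B i)).toReal
        ≤ ∑ i, (h * (‖a i‖ ^ 2 / Real.sqrt (1 + (g i 0) ^ 2 + h ^ 2 * (g i 1) ^ 2)) +
          ε / (2 * (k + 1))) := Finset.sum_le_sum fun i _ => by
            rw [← hTarea i]; exact hBarea i
      _ = h * ∑ i, ‖a i‖ ^ 2 / Real.sqrt (1 + (g i 0) ^ 2 + h ^ 2 * (g i 1) ^ 2) +
          k * (ε / (2 * (k + 1))) := by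
            rw [Finset.sum_add_distrib, ← Finset.mul_sum, Finset.sum_const, Finset.card_univ,
              Fintype.card_fin, nsmul_eq_mul]
      _ ≤ h * ((∫ p in D, 1 / Real.sqrt (1 + (V p 0) ^ 2 + h ^ 2 * (V p 1) ^ 2)) +
          ε / (2 * h)) + ε / 2 := by
            apply add_le_add (mul_le_mul_of_nonneg_left hsum hh.le)
            have hk : (0 : ℝ) < 2 * (k + 1) := by positivity
            rw [mul_div_assoc', div_le_div_iff₀ hk two_pos]
            nlinarith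
      _ = _ := by field_simp; ring

end Crest.Agent.S0329
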