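import Crest.Statements.S0335
import Crest.Agent.R216.Main
import Crest.Agent.R216.GlobStep
import Crest.Agent.R216.PSL
import Crest.Agent.R216.EFin
import Crest.Agent.R216.StageFin
import Crest.Agent.R216.Macro
import Crest.Agent.R216.D6
import Crest.Agent.R216.BaseMain
import Crest.Agent.R216.DecFinal

set_option autoImplicit false
open scoped Manifold ContDiff
open Crest Crest.GeometryTopology

namespace Crest.Agent.S0335

/-- Let M be a compact Hausdorff smooth manifold without boundary modelled on the Euclidean plane (not assumed connected or orientable), and let g be a smooth Riemannian metric on its tangent bundle. Then some smooth map F from M to Euclidean four-space has differential carrying g to the Euclidean inner product at every point: for all tangent vectors v, w at p, the inner product of dF_p v with dF_p w equals g_p(v, w). Positivity of g makes each dF_p injective, so F is an isometric immersion. -/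
theorem result
    (M : Type*) [TopologicalSpace M] [T2Space M] [CompactSpace M]
    [ChartedSpace (EuclideanSpace ℝ (Fin 2)) M] [IsManifold (𝓡 2) ∞ M]
    (g : Bundle.ContMDiffRiemannianMetric (𝓡 2) ∞ (EuclideanSpace ℝ (Fin 2))
      (TangentSpace (𝓡 2) : M → Type)) :
    ∃ F : M → EuclideanSpace ℝ (Fin 4),
      ContMDiff (𝓡 2) 𝓘(ℝ, EuclideanSpace ℝ (Fin 4)) ∞ F ∧
      ∀ (p : M) (v w : TangentSpace (𝓡 2) p),
        @inner ℝ (EuclideanSpace ℝ (Fin 4)) _ (mfderiv (𝓡 2) 𝓘(ℝ, EuclideanSpace ℝ (Fin 4)) F p v)
          (mfderiv (𝓡 2) 𝓘(ℝ, EuclideanSpace ℝ (Fin 4)) F p w) = g.inner p v w := by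
  obtain ⟨j, hj, hji⟩ := Crest.Agent.R216.D.exists_immersion_E3 M
  have hE : Crest.Agent.R216.TheoremE :=
    Crest.Agent.R216.TE.theoremE_of_pair (by norm_num) (by norm_num) le_rfl
      Crest.Agent.R216.TE.stageThm
      (Crest.Agent.R216.TE.macroThm _ _ _ _ (by norm_num) (by norm_num) le_rfl)
  exact Crest.Agent.R216.main_of_parts M (Crest.Agent.R216.Dec.decompStatement M)
    (Crest.Agent.R216.Base.base_of_immersion hj hji)
    (Crest.Agent.R216.step_of_planar (Crest.Agent.R216.PSL.planarStep_of_theoremE hE)) g

end Crest.Agent.S0335
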