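import Crest.Statements.S0355
import Crest.Agent.R230.Bridge

set_option autoImplicit false
open MeasureTheory
open scoped ENNReal
open Crest Crest.GeometryTopology Crest.GeometryTopology.Convex

namespace Crest.Agent.S0355

/-- There is a convex body K in ℝ^20 (compact, convex, with nonempty interior) whose projection body ΠK — the points x with ⟪x, u⟫ ≤ vol₁₉(P_u K) for every unit u, P_u the orthogonal projection on u^⊥ and vol₁₉ the Lebesgue-normalised 19-dimensional Hausdorff measure — has vol(ΠK)/vol(K)^19 exactly equal to c · 22355476/22020096, where c = 21·20^20/20!; in particular vol(ΠK) > c · vol(K)^19. -/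
theorem result :
    ∃ K : Set (EuclideanSpace ℝ (Fin 20)), IsCompact K ∧ Convex ℝ K ∧ (interior K).Nonempty ∧
      (volume (⋂ u ∈ Metric.sphere (0 : EuclideanSpace ℝ (Fin 20)) 1,
            {x : EuclideanSpace ℝ (Fin 20) | inner ℝ x u ≤
              ((μHE[19] : Measure (EuclideanSpace ℝ (Fin 20))) ((fun y => y - inner ℝ y u • u) '' K)).toReal})).toReal /
          (volume K).toReal ^ 19 =
        (21 * 20 ^ 20 / Nat.factorial 20 : ℝ) * (22355476 / 22020096) ∧
      (21 * 20 ^ 20 / Nat.factorial 20 : ℝ) * (volume K).toReal ^ 19 <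
        (volume (⋂ u ∈ Metric.sphere (0 : EuclideanSpace ℝ (Fin 20)) 1,
            {x : EuclideanSpace ℝ (Fin 20) | inner ℝ x u ≤
              ((μHE[19] : Measure (EuclideanSpace ℝ (Fin 20))) ((fun y => y - inner ℝ y u • u) '' K)).toReal})).toReal := by
  obtain ⟨S, h, hi, hs, hv, hv0, hp⟩ := ((Crest.Agent.R230.Simp.good_corner (n := 10) (by norm_num)).mul
    (Crest.Agent.R230.Simp.good_corner (n := 10) (by norm_num))).ex
  have hcomp : IsCompact (convexHull ℝ (S : Set (Fin (10 + 10) → ℝ))) :=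
    S.finite_toSet.isCompact_convexHull ℝ
  have hconv := convex_convexHull ℝ (S : Set (Fin (10 + 10) → ℝ))
  have hmp := PiLp.volume_preserving_ofLp (Fin 20)
  have hvK : (volume (WithLp.ofLp ⁻¹' (convexHull ℝ (S : Set (Fin (10 + 10) → ℝ))) :
      Set (EuclideanSpace ℝ (Fin 20)))).toReal = 1 / Nat.factorial 10 * (1 / Nat.factorial 10) := by
    rw [← hv]
    congr 1
    exact hmp.measure_preimage hcomp.measurableSet.nullMeasurableSet
  have hvP : (volume (⋂ u ∈ Metric.sphere (0 : EuclideanSpace ℝ (Fin 20)) 1,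
            {x : EuclideanSpace ℝ (Fin 20) | inner ℝ x u ≤
              ((μHE[19] : Measure (EuclideanSpace ℝ (Fin 20))) ((fun y => y - inner ℝ y u • u) ''
                (WithLp.ofLp ⁻¹' (convexHull ℝ (S : Set (Fin (10 + 10) → ℝ)))))).toReal})).toReal =
      (1 / Nat.factorial 10) ^ 10 * ((((10 : ℕ) : ℝ) / Nat.factorial 10) ^ 10 * ((10 : ℕ) + 1)) *
      ((1 / Nat.factorial 10) ^ 10 *
        ((((10 : ℕ) : ℝ) / Nat.factorial 10) ^ 10 * ((10 : ℕ) + 1))) := by
    rw [← hp]
    congr 1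
    exact Crest.Agent.R230.Simp.volume_proj_set (m := 19) hcomp hconv hi hs
  have hratio : (volume (⋂ u ∈ Metric.sphere (0 : EuclideanSpace ℝ (Fin 20)) 1,
            {x : EuclideanSpace ℝ (Fin 20) | inner ℝ x u ≤
              ((μHE[19] : Measure (EuclideanSpace ℝ (Fin 20))) ((fun y => y - inner ℝ y u • u) ''
                (WithLp.ofLp ⁻¹' (convexHull ℝ (S : Set (Fin (10 + 10) → ℝ)))))).toReal})).toReal /
          (volume (WithLp.ofLp ⁻¹' (convexHull ℝ (S : Set (Fin (10 + 10) → ℝ))) :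
            Set (EuclideanSpace ℝ (Fin 20)))).toReal ^ 19 =
        (21 * 20 ^ 20 / Nat.factorial 20 : ℝ) * (22355476 / 22020096) := by
    rw [hvP, hvK]
    norm_num [Nat.factorial]
  have hpos : (0 : ℝ) < (volume (WithLp.ofLp ⁻¹' (convexHull ℝ (S : Set (Fin (10 + 10) → ℝ))) :
            Set (EuclideanSpace ℝ (Fin 20)))).toReal := by
    rw [hvK]; positivity
  refine ⟨WithLp.ofLp ⁻¹' (convexHull ℝ (S : Set (Fin (10 + 10) → ℝ))), ?_, ?_, ?_, hratio, ?_⟩
  · have : (WithLp.ofLp ⁻¹' (convexHull ℝ (S : Set (Fin (10 + 10) → ℝ))) :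
        Set (EuclideanSpace ℝ (Fin 20))) = (EuclideanSpace.equiv (Fin 20) ℝ).symm ''
          (convexHull ℝ (S : Set (Fin (10 + 10) → ℝ))) := by
      rw [(EuclideanSpace.equiv (Fin 20) ℝ).symm.image_eq_preimage_symm]; rfl
    rw [this]
    exact hcomp.image (EuclideanSpace.equiv (Fin 20) ℝ).symm.continuous
  · exact hconv.linear_preimage (EuclideanSpace.equiv (Fin 20) ℝ).toLinearEquiv.toLinearMap
  · obtain ⟨x, hx⟩ := hi
    refine ⟨(EuclideanSpace.equiv (Fin 20) ℝ).symm x, ?_⟩
    have h2 : (WithLp.ofLp ⁻¹' (interior (convexHull ℝ (S : Set (Fin (10 + 10) → ℝ)))) :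
        Set (EuclideanSpace ℝ (Fin 20))) ⊆
        interior (WithLp.ofLp ⁻¹' (convexHull ℝ (S : Set (Fin (10 + 10) → ℝ)))) :=
      interior_maximal (Set.preimage_mono interior_subset)
        (isOpen_interior.preimage (EuclideanSpace.equiv (Fin 20) ℝ).continuous)
    exact h2 hx
  · rw [div_eq_iff (pow_pos hpos 19).ne'] at hratio
    rw [hratio]
    have hc : (0 : ℝ) < 21 * 20 ^ 20 / Nat.factorial 20 := by positivity
    have hv19 := pow_pos hpos 19
    nlinarith [mul_pos hc hv19]

end Crest.Agent.S0355
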