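import Crest.Statements.S0356
import Crest.Agent.R230.Bridge

set_option autoImplicit false
open MeasureTheory
open scoped ENNReal
open Crest Crest.GeometryTopology Crest.GeometryTopology.Convex

namespace Crest.Agent.S0356

open Crest.Agent.R230.Simp

/-- Ratio form of the product formula. -/
theorem good_mul {a b : ℕ} (ha : 0 < a) (hb : 0 < b) {v1 v2 r1 r2 : ℝ}
    (g1 : Good a v1 (r1 * v1 ^ (a - 1))) (g2 : Good b v2 (r2 * v2 ^ (b - 1))) :
    Good (a + b) (v1 * v2) (r1 * r2 * (v1 * v2) ^ (a + b - 1)) := by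
  have h := g1.mul g2
  convert h using 1
  obtain ⟨a, rfl⟩ := Nat.exists_eq_succ_of_ne_zero ha.ne'
  obtain ⟨b, rfl⟩ := Nat.exists_eq_succ_of_ne_zero hb.ne'
  have e1 : a.succ + b.succ - 1 = a + b + 1 := by omega
  rw [e1]
  simp only [Nat.succ_eq_add_one, Nat.add_sub_cancel]
  ring

/-- Projection ratio of the simplex. -/
noncomputable def rho (n : ℕ) : ℝ := (n + 1) * n ^ n / n.factorial

theorem good_corner' {n : ℕ} (hn : 0 < n) :
    Good n (1 / n.factorial) (rho n * (1 / n.factorial) ^ (n - 1)) := by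
  have h := good_corner hn
  convert h using 1
  unfold rho
  obtain ⟨n, rfl⟩ := Nat.exists_eq_succ_of_ne_zero hn.ne'
  simp only [Nat.succ_eq_add_one, Nat.add_sub_cancel]
  have hf : ((n + 1).factorial : ℝ) ≠ 0 := by positivity
  rw [div_pow, div_pow, one_pow]
  field_simp
  ring

theorem rho_le (n : ℕ) : rho n ≤ (n + 1) * Real.exp 1 ^ n := by
  have h := Real.pow_div_factorial_le_exp (n : ℝ) (Nat.cast_nonneg n) n
  have e : Real.exp (n : ℝ) = Real.exp 1 ^ n := by rw [← Real.exp_nat_mul, mul_one]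
  rw [e] at h
  unfold rho
  rw [mul_div_assoc]
  exact mul_le_mul_of_nonneg_left h (by positivity)

theorem one_le_rho {r : ℕ} (hr : 0 < r) : 1 ≤ rho r := by
  unfold rho
  rw [le_div_iff₀ (by positivity), one_mul]
  have h1 : (r.factorial : ℝ) ≤ (r : ℝ) ^ r := by exact_mod_cast Nat.factorial_le_pow r
  have h2 : (0 : ℝ) ≤ (r : ℝ) ^ r := by positivity
  have h3 : (0 : ℝ) ≤ (r : ℝ) := by positivity
  nlinarith

theorem good_blocks (k : ℕ) {r : ℕ} (hr : 0 < r) :
    ∃ v, Good (10 * k + r) v (rho 10 ^ k * rho r * v ^ (10 * k + r - 1)) := by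
  induction k with
  | zero =>
    refine ⟨1 / r.factorial, ?_⟩
    have h := good_corner' hr
    simpa using h
  | succ k ih =>
    obtain ⟨v, hv⟩ := ih
    refine ⟨v * (1 / Nat.factorial 10), ?_⟩
    have h := good_mul (by omega) (by norm_num) hv (good_corner' (n := 10) (by norm_num))
    have e : 10 * (k + 1) + r = 10 * k + r + 10 := by ring
    rw [e]
    convert h using 1
    rw [pow_succ]
    ring

theorem rho_ten : (2.8 : ℝ) ^ 10 ≤ rho 10 := by
  unfold rho
  norm_num [Nat.factorial]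

theorem exists_N : ∃ N : ℕ, 20 ≤ N ∧ ∀ n : ℕ, N ≤ n →
    (1.01 : ℝ) ^ n * ((n + 1) * Real.exp 1 ^ n) ≤ (2.8 : ℝ) ^ n / 2.8 ^ 10 := by
  have hq1 : |(1.01 * Real.exp 1 / 2.8 : ℝ)| < 1 := by
    rw [abs_of_pos (by positivity), div_lt_one (by norm_num)]
    have := Real.exp_one_lt_d9
    linarith
  have t1 := tendsto_pow_const_mul_const_pow_of_abs_lt_one 1 hq1
  have t2 := tendsto_pow_const_mul_const_pow_of_abs_lt_one 0 hq1
  have t3 := (t1.add t2).eventually (gt_mem_nhds (show (0 : ℝ) + 0 < 1 / 2.8 ^ 10 by norm_num))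
  obtain ⟨N, hN⟩ := Filter.eventually_atTop.1 t3
  refine ⟨max N 20, le_max_right _ _, fun n hn => ?_⟩
  have h := hN n ((le_max_left _ _).trans hn)
  simp only [pow_one, pow_zero, one_mul] at h
  have h2 : (0 : ℝ) < 2.8 ^ n := by positivity
  have h3 : (n : ℝ) * (1.01 * Real.exp 1 / 2.8) ^ n + (1.01 * Real.exp 1 / 2.8) ^ n =
      (1.01 ^ n * ((n + 1) * Real.exp 1 ^ n)) / 2.8 ^ n := by
    rw [div_pow, mul_pow]; ring
  rw [h3, div_lt_iff₀ h2] at h
  calc _ ≤ 1 / 2.8 ^ 10 * (2.8 : ℝ) ^ n := h.le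
    _ = _ := by ring


/-- There are λ > 1 and N ≥ 20 such that for every n ≥ N some full-dimensional convex polytope K ⊂ ℝ^n (convex hull of finitely many points, with nonempty interior) has normalised projection-body volume vol(ΠK)/vol(K)^(n−1) at least λ^n times that of the standard simplex {x : xᵢ ≥ 0, ∑ xᵢ ≤ 1}; here ΠL is the set of x with ⟪x, u⟫ ≤ vol_{n−1}(P_u L) for all unit u, P_u the orthogonal projection on u^⊥ and vol_{n−1} the Lebesgue-normalised (n−1)-dimensional Hausdorff measure. -/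
theorem result :
    ∃ lam : ℝ, 1 < lam ∧ ∃ N : ℕ, 20 ≤ N ∧ ∀ n : ℕ, N ≤ n →
      ∃ S : Finset (EuclideanSpace ℝ (Fin n)),
        (interior (convexHull ℝ (S : Set (EuclideanSpace ℝ (Fin n))))).Nonempty ∧
        lam ^ n *
            ((volume (⋂ u ∈ Metric.sphere (0 : EuclideanSpace ℝ (Fin n)) 1,
          {x : EuclideanSpace ℝ (Fin n) | inner ℝ x u ≤
            ((μHE[n - 1] : Measure (EuclideanSpace ℝ (Fin n))) ((fun y => y - inner ℝ y u • u) '' {x : EuclideanSpace ℝ (Fin n) | (∀ i, 0 ≤ x i) ∧ ∑ i, x i ≤ 1})).toReal})).toReal /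
              (volume {x : EuclideanSpace ℝ (Fin n) | (∀ i, 0 ≤ x i) ∧ ∑ i, x i ≤ 1}).toReal ^ (n - 1)) ≤
          (volume (⋂ u ∈ Metric.sphere (0 : EuclideanSpace ℝ (Fin n)) 1,
          {x : EuclideanSpace ℝ (Fin n) | inner ℝ x u ≤
            ((μHE[n - 1] : Measure (EuclideanSpace ℝ (Fin n))) ((fun y => y - inner ℝ y u • u) '' (convexHull ℝ (S : Set (EuclideanSpace ℝ (Fin n)))))).toReal})).toReal /
            (volume (convexHull ℝ (S : Set (EuclideanSpace ℝ (Fin n))))).toReal ^ (n - 1) := by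
  obtain ⟨N, hN20, hN⟩ := exists_N
  refine ⟨1.01, by norm_num, N, hN20, fun n hn => ?_⟩
  obtain ⟨m, rfl⟩ : ∃ m, n = m + 1 := ⟨n - 1, by omega⟩
  -- blocks
  obtain ⟨k, r, hr0, hr10, hkr⟩ : ∃ k r : ℕ, 0 < r ∧ r ≤ 10 ∧ m + 1 = 10 * k + r :=
    ⟨m / 10, m % 10 + 1, by omega, by omega, by omega⟩
  obtain ⟨v, hg⟩ := good_blocks k hr0
  rw [← hkr] at hg
  obtain ⟨S, h, hi, hs, hv, hv0, hp⟩ := hg.ex
  have hmp := PiLp.volume_preserving_ofLp (Fin (m + 1))
  classical
  have hset : convexHull ℝ ((S.image (WithLp.toLp 2 : (Fin (m + 1) → ℝ) →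
      EuclideanSpace ℝ (Fin (m + 1))) : Finset (EuclideanSpace ℝ (Fin (m + 1)))) :
      Set (EuclideanSpace ℝ (Fin (m + 1)))) =
      WithLp.ofLp ⁻¹' (convexHull ℝ (S : Set (Fin (m + 1) → ℝ))) := by
    rw [Finset.coe_image]
    have e := (EuclideanSpace.equiv (Fin (m + 1)) ℝ).symm.toLinearEquiv.toLinearMap.image_convexHull
      (S : Set (Fin (m + 1) → ℝ))
    have e2 := (EuclideanSpace.equiv (Fin (m + 1)) ℝ).symm.image_eq_preimage_symm
      (convexHull ℝ (S : Set (Fin (m + 1) → ℝ)))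
    exact e.symm.trans e2
  have hcomp : IsCompact (convexHull ℝ (S : Set (Fin (m + 1) → ℝ))) :=
    S.finite_toSet.isCompact_convexHull ℝ
  have hconv := convex_convexHull ℝ (S : Set (Fin (m + 1) → ℝ))
  have hvK : (volume (WithLp.ofLp ⁻¹' (convexHull ℝ (S : Set (Fin (m + 1) → ℝ))) :
      Set (EuclideanSpace ℝ (Fin (m + 1))))).toReal = v := by
    rw [← hv]
    congr 1
    exact hmp.measure_preimage hcomp.measurableSet.nullMeasurableSet
  have hP := volume_proj_set hcomp hconv hi hs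
  have hPT := volume_proj_set (isCompact_corner (m + 1)) (convex_corner (m + 1) 1)
    (interior_corner_nonempty (m + 1)) (isSh_corner (m + 1))
  have hT : {x : EuclideanSpace ℝ (Fin (m + 1)) | (∀ i, 0 ≤ x i) ∧ ∑ i, x i ≤ 1} =
      WithLp.ofLp ⁻¹' (corner (m + 1) 1) := rfl
  have hvT : (volume (WithLp.ofLp ⁻¹' (corner (m + 1) 1) :
      Set (EuclideanSpace ℝ (Fin (m + 1))))).toReal = 1 / (m + 1).factorial := by
    rw [hmp.measure_preimage (isCompact_corner (m + 1)).measurableSet.nullMeasurableSet,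
      volume_corner_one, ENNReal.toReal_ofReal (by positivity)]
  refine ⟨S.image (WithLp.toLp 2), ?_, ?_⟩
  · rw [hset]
    obtain ⟨x, hx⟩ := hi
    refine ⟨(EuclideanSpace.equiv (Fin (m + 1)) ℝ).symm x, ?_⟩
    have h2 : (WithLp.ofLp ⁻¹' (interior (convexHull ℝ (S : Set (Fin (m + 1) → ℝ)))) :
        Set (EuclideanSpace ℝ (Fin (m + 1)))) ⊆
        interior (WithLp.ofLp ⁻¹' (convexHull ℝ (S : Set (Fin (m + 1) → ℝ)))) :=
      interior_maximal (Set.preimage_mono interior_subset)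
        (isOpen_interior.preimage (EuclideanSpace.equiv (Fin (m + 1)) ℝ).continuous)
    exact h2 hx
  · rw [hset, hT, hP, hPT, hvK, hvT, hp, volume_PB_corner (Nat.succ_pos m)]
    have hratT : (((m + 1 : ℕ) : ℝ) / (m + 1).factorial) ^ (m + 1) * ((m + 1 : ℕ) + 1) /
        (1 / (m + 1).factorial) ^ (m + 1 - 1) = rho (m + 1) := by
      unfold rho
      simp only [Nat.add_sub_cancel]
      have hf : ((m + 1).factorial : ℝ) ≠ 0 := by positivity
      rw [div_pow, div_pow, one_pow]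
      field_simp
      ring
    rw [hratT, mul_div_assoc, div_self (pow_pos hv0 _).ne', mul_one]
    have h10 : (0 : ℝ) < 2.8 := by norm_num
    calc (1.01 : ℝ) ^ (m + 1) * rho (m + 1)
        ≤ (1.01 : ℝ) ^ (m + 1) * (((m + 1 : ℕ) + 1) * Real.exp 1 ^ (m + 1)) :=
          mul_le_mul_of_nonneg_left (rho_le (m + 1)) (by positivity)
      _ ≤ (2.8 : ℝ) ^ (m + 1) / 2.8 ^ 10 := hN (m + 1) hn
      _ ≤ (2.8 : ℝ) ^ (10 * k) := by
          rw [hkr, pow_add, mul_div_assoc]
          have : (2.8 : ℝ) ^ r / 2.8 ^ 10 ≤ 1 := by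
            rw [div_le_one (by positivity)]
            exact pow_le_pow_right₀ (by norm_num) hr10
          calc _ ≤ (2.8 : ℝ) ^ (10 * k) * 1 := mul_le_mul_of_nonneg_left this (by positivity)
            _ = _ := mul_one _
      _ = ((2.8 : ℝ) ^ 10) ^ k := by rw [pow_mul]
      _ ≤ rho 10 ^ k := pow_le_pow_left₀ (by positivity) rho_ten k
      _ = rho 10 ^ k * 1 := (mul_one _).symm
      _ ≤ rho 10 ^ k * rho r := by
          apply mul_le_mul_of_nonneg_left (one_le_rho hr0)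
          exact pow_nonneg ((by norm_num : (0:ℝ) ≤ 2.8 ^ 10).trans rho_ten) _

end Crest.Agent.S0356
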