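import Crest.Statements.S0359
import Crest.Agent.R232.S359

set_option autoImplicit false
open MeasureTheory
open scoped ENNReal
open Crest Crest.GeometryTopology

namespace Crest.Agent.S0359

/-- Fix an exponent 1 < p < ∞ with p ≠ 2 and n ≥ 9. If d is a dimension such that every n distinct points of any real L^p space can be mapped to the d-dimensional real ℓ^p space with all pairwise distances multiplied by one common factor s > 0 (an isometric embedding up to scaling), then ⌊(n − 1)/4⌋² ≤ d. -/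
theorem result
    (p : ℝ≥0∞) [Fact (1 ≤ p)] (hp1 : 1 < p) (hptop : p ≠ ⊤) (hp2 : p ≠ 2)
    (n : ℕ) (hn : 9 ≤ n) (d : ℕ)
    (hd : ∀ (α : Type) [MeasurableSpace α] (μ : Measure α) (x : Fin n → Lp ℝ p μ),
      Function.Injective x →
      ∃ (y : Fin n → PiLp p (fun _ : Fin d => ℝ)) (s : ℝ), 0 < s ∧
        ∀ i j, ‖y i - y j‖ = s * ‖x i - x j‖) :
    ((n - 1) / 4) ^ 2 ≤ d := by
  classical
  set m := (n - 1) / 4 with hm
  have hm0 : 0 < m := by omega
  have hcardm : 4 * m + 1 ≤ n := by omega
  have hp0 : p ≠ 0 := (lt_trans zero_lt_one hp1).ne'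
  set q := p.toReal with hq
  have hq1 : 1 < q := by
    rw [hq, ← ENNReal.toReal_one]
    exact (ENNReal.toReal_lt_toReal ENNReal.one_ne_top hptop).mpr hp1
  have hq0 : 0 < q := by linarith
  have hq2 : q ≠ 2 := by
    intro e
    apply hp2
    rw [← ENNReal.ofReal_toReal hptop, ← hq, e]
    norm_num
  let μ : Measure (Fin m × Fin m) := Measure.count
  have hmem : ∀ f : Fin m × Fin m → ℝ, MemLp f p μ := fun f => MemLp.of_discrete
  let P : (Fin m × Fin m → ℝ) → Lp ℝ p μ := fun f => (hmem f).toLp f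
  have hnorm : ∀ f g : Fin m × Fin m → ℝ, ‖P f - P g‖ ^ q = ∑ ω, |f ω - g ω| ^ q := by
    intro f g
    have e1 : P f - P g = (hmem (f - g)).toLp (f - g) := (MemLp.toLp_sub (hmem f) (hmem g)).symm
    rw [e1, Lp.norm_toLp, eLpNorm_eq_lintegral_rpow_enorm_toReal hp0 hptop, lintegral_count,
      tsum_fintype, ← ENNReal.toReal_rpow, ← Real.rpow_mul ENNReal.toReal_nonneg, ← hq,
      one_div, inv_mul_cancel₀ hq0.ne', Real.rpow_one, ENNReal.toReal_sum]
    · refine Finset.sum_congr rfl (fun ω _ => ?_)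
      rw [← ENNReal.toReal_rpow, toReal_enorm]
      rfl
    · intro ω _
      exact ENNReal.rpow_ne_top_of_nonneg hq0.le (by simp)
  have hPinj : Function.Injective P := by
    intro f g h
    have h1 := hnorm f g
    rw [h, sub_self, norm_zero, Real.zero_rpow hq0.ne'] at h1
    have h2 := (Finset.sum_eq_zero_iff_of_nonneg (fun ω _ => Real.rpow_nonneg (abs_nonneg _) q)).mp
      h1.symm
    funext ω
    have h3 := h2 ω (Finset.mem_univ ω)
    have h4 := (Real.rpow_eq_zero (abs_nonneg _) hq0.ne').mp h3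
    have h5 := abs_eq_zero.mp h4
    linarith
  have hne : Nonempty (Fin m × Fin m) := ⟨(⟨0, hm0⟩, ⟨0, hm0⟩)⟩
  have hinf : Infinite (Lp ℝ p μ) := Infinite.of_injective P hPinj
  -- the finite set of points
  let S0 : Finset (Fin m × Fin m → ℝ) := {0} ∪
    (Finset.univ.image R232.row ∪ Finset.univ.image (fun i => -R232.row i)) ∪
    (Finset.univ.image R232.col ∪ Finset.univ.image (fun i => -R232.col i))
  have hS0 : ∀ f, f ∈ R232.pts m → f ∈ S0 := by
    intro f hf
    simp only [S0, Finset.mem_union, Finset.mem_singleton, Finset.mem_image, Finset.mem_univ, true_and]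
    rcases hf with (hf | (⟨i, hi⟩ | ⟨i, hi⟩)) | (⟨i, hi⟩ | ⟨i, hi⟩)
    · left; left; exact hf
    · left; right; left; exact ⟨i, hi⟩
    · left; right; right; exact ⟨i, hi⟩
    · right; left; exact ⟨i, hi⟩
    · right; right; exact ⟨i, hi⟩
  have hcard : (S0.image P).card ≤ n := by
    refine le_trans Finset.card_image_le (le_trans ?_ hcardm)
    refine le_trans (Finset.card_union_le _ _) ?_
    have a1 : (({0} : Finset (Fin m × Fin m → ℝ)) ∪ (Finset.univ.image R232.row ∪
        Finset.univ.image (fun i => -R232.row i))).card ≤ 1 + (m + m) := by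
      refine le_trans (Finset.card_union_le _ _) (Nat.add_le_add (by simp) ?_)
      refine le_trans (Finset.card_union_le _ _) (Nat.add_le_add ?_ ?_) <;>
        exact le_trans Finset.card_image_le (by simp)
    have a2 : ((Finset.univ.image R232.col ∪
        Finset.univ.image (fun i => -R232.col i)) : Finset (Fin m × Fin m → ℝ)).card ≤ m + m := by
      refine le_trans (Finset.card_union_le _ _) (Nat.add_le_add ?_ ?_) <;>
        exact le_trans Finset.card_image_le (by simp)
    omega
  obtain ⟨T, hST, hT⟩ := Infinite.exists_superset_card_eq (S0.image P) n hcard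
  let e : T ≃ Fin n := T.equivFinOfCardEq hT
  obtain ⟨y, s, hs, hy⟩ := hd (Fin m × Fin m) μ (fun i => ((e.symm i : T) : Lp ℝ p μ))
    (fun i j h => e.symm.injective (Subtype.ext h))
  let F : (Fin m × Fin m → ℝ) → Fin d → ℝ := fun f k =>
    if h : P f ∈ T then y (e ⟨P f, h⟩) k else 0
  refine R232.core hq1 hq2 F (s ^ q) (Real.rpow_pos_of_pos hs q) ?_
  intro f hf g hg
  have hfT : P f ∈ T := hST (Finset.mem_image_of_mem P (hS0 f hf))
  have hgT : P g ∈ T := hST (Finset.mem_image_of_mem P (hS0 g hg))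
  have h1 := hy (e ⟨P f, hfT⟩) (e ⟨P g, hgT⟩)
  simp only [Equiv.symm_apply_apply] at h1
  rw [← hnorm f g, ← Real.mul_rpow hs.le (norm_nonneg _), ← h1, PiLp.norm_eq_sum (by rw [← hq]; exact hq0),
    ← hq, ← Real.rpow_mul (Finset.sum_nonneg (fun k _ => Real.rpow_nonneg (norm_nonneg _) q)),
    one_div, inv_mul_cancel₀ hq0.ne', Real.rpow_one]
  refine Finset.sum_congr rfl (fun k _ => ?_)
  simp only [F, dif_pos hfT, dif_pos hgT]
  rfl

end Crest.Agent.S0359
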