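import Crest.Statements.S0402
import Crest.Agent.R264.TopFin
import Crest.Agent.R264.ThmDFin
import Crest.Agent.R264.BshThm
import Crest.Agent.R264.CN5
import Crest.Agent.R264.CI
import Crest.Agent.R264.CK3
import Crest.Agent.R264.CPBound
import Crest.Agent.R264.ASM
import Crest.Agent.R264.APk
import Crest.Agent.R264.AS6
import Crest.Agent.R264.MSmooth
import Crest.Agent.R264.Pk6
import Crest.Agent.R264.LemJ3
import Crest.Agent.R264.CoMain
import Crest.Agent.R264.AChg
import Crest.Agent.R264.SAUFinal
import Crest.Agent.R264.SAFar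
import Crest.Agent.R264.JLMain
import Crest.Agent.R264.CtlFin
import Crest.Agent.R264.A9Box
import Crest.Agent.R264.SmMain

set_option autoImplicit false
open Topology Filter
open Crest Crest.AlgGeometry

namespace Crest.Agent.S0402

theorem propC : Crest.Agent.R264.PropC := by
  intro N U Γ S n hn hU P
  obtain ⟨T⟩ := Crest.Agent.R264.CN.propC2 N U Γ S n hn hU P
  obtain ⟨L⟩ := Crest.Agent.R264.CK.propC34_of Crest.Agent.R264.CI.c3 N U Γ S n hn hU P T
  exact Crest.Agent.R264.CP.model_of P T L

open Crest.Agent.R264 in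
theorem thmAA : ThmAA :=
  AI.thmAT_of (AI.pkStmt AS.strataStmt AI.mSmooth Pk.pkCalc) LJ.lemJ Co.coordStmt AChg.fchartStmt
    SAU.arcStmt AI.farStmt JL.main Ctl.ctrlStmt (A9.boxStmt_of BshM.thmB_final)

/-- Let U be a connected bounded semialgebraic subset of ℂ^N, open in a complex algebraic set, and Γ a group of permutations of U, each locally the restriction of a holomorphic map of ℂ^N, acting properly discontinuously with compact quotient. Then U is biholomorphic to a bounded symmetric domain: there are a bounded connected open D in some ℂ^m, each point of which is an isolated fixed point of a holomorphic involution of D (how such domains are encoded), and inverse holomorphic maps U → D → U. -/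
theorem result
    (N : ℕ) (V U : Set (Fin N → ℂ)) (hV : Crest.AlgGeometry.Semialg.IsAlgebraicSet V)
    (hUV : ∃ O : Set (Fin N → ℂ), IsOpen O ∧ U = O ∩ V)
    (hconn : IsConnected U) (hsa : Crest.AlgGeometry.Semialg.IsSemialgebraic U)
    (hbd : Bornology.IsBounded U) (Γ : Subgroup (Equiv.Perm U))
    (hΓ : ∀ γ ∈ Γ, Crest.AlgGeometry.Semialg.IsHolomorphicMap U (fun y : U => ((γ y : U) : Fin N → ℂ)))
    (hpd : ProperlyDiscontinuousSMul Γ U)
    (hcpt : CompactSpace (Quotient (MulAction.orbitRel Γ U))) :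
    ∃ (m : ℕ) (D : Set (Fin m → ℂ)), Crest.AlgGeometry.Semialg.IsBoundedSymmetricDomain D ∧
      ∃ (Ψ : U → (Fin m → ℂ)) (Θ : (Fin m → ℂ) → (Fin N → ℂ)),
        Crest.AlgGeometry.Semialg.IsHolomorphicMap U Ψ ∧ DifferentiableOn ℂ Θ D ∧
        (∀ y : U, Ψ y ∈ D ∧ Θ (Ψ y) = (y : Fin N → ℂ)) ∧
        (∀ z ∈ D, ∃ y : U, (y : Fin N → ℂ) = Θ z ∧ Ψ y = z) :=
  Crest.Agent.R264.s0402_of Crest.Agent.R264.Sm.part0A thmAA propC Crest.Agent.R264.thmD
    N V U hV hUV hconn hsa hbd Γ hΓ hpd hcpt

end Crest.Agent.S0402
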