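import Crest.Statements.S0410
import Crest.Agent.R268.CommC

set_option autoImplicit false
open Crest Crest.AlgGeometry

namespace Crest.Agent.S0410

section aux
open MvPolynomial Crest.Agent.R268.Comm

variable (m : ℕ)

/-- the critical point `(54, 0, -1/27, -1/9)` -/
noncomputable def pt : Fin (4 + m) → ℂ :=
  Fin.addCases ![54, 0, -1/27, -1/9] (fun _ => 0)

noncomputable def ev : A m →ₐ[ℂ] ℂ := aeval (pt m)

theorem ev_xs (j : Fin 4) : ev m (xs m j) = (![54, 0, -1/27, -1/9] : Fin 4 → ℂ) j := by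
  rw [ev, xs, aeval_X, pt, Fin.addCases_left]

theorem ev_r : ev m (r (xs m 0) (xs m 1) (xs m 2) (xs m 3)) = 1 := by
  have := map_r (ev m : A m →+* ℂ) (xs m 0) (xs m 1) (xs m 2) (xs m 3)
  simp only [RingHom.coe_coe, ev_xs] at this
  rw [this]
  simp [r, q]; norm_num

theorem ev_q' : ev m (q' (xs m 0) (xs m 1) (xs m 2) (xs m 3)) = 0 := by
  have := map_q' (ev m : A m →+* ℂ) (xs m 0) (xs m 1) (xs m 2) (xs m 3)
  simp only [RingHom.coe_coe, ev_xs] at this
  rw [this]
  simp [q', r, q]; norm_num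

theorem ev_p' : ev m (p' (xs m 0) (xs m 1) (xs m 2) (xs m 3)) = 0 := by
  have := map_p' (ev m : A m →+* ℂ) (xs m 0) (xs m 1) (xs m 2) (xs m 3)
  simp only [RingHom.coe_coe, ev_xs] at this
  rw [this]
  simp [p', p, r, q]; norm_num

theorem ev_F : ev m (Fm m) = 0 := by
  have h := congrArg (ev m) (id1 (xs m 0) (xs m 1) (xs m 2) (xs m 3))
  simp only [map_mul, map_sub, map_pow, ev_r, ev_q', ev_p'] at h
  rw [Fm]
  simpa using h

theorem descent (n : ℕ) : ∀ (c : Polynomial ℂ) (g : A m), Fm m ^ n * g = Polynomial.aeval (Fm m) c →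
    g ∈ Algebra.adjoin ℂ {Fm m} := by
  induction n with
  | zero =>
    intro c g h
    rw [Algebra.adjoin_singleton_eq_range_aeval]
    exact ⟨c, by simpa using h.symm⟩
  | succ n ih =>
    intro c g h
    have h1 := congrArg (ev m) h
    rw [map_mul, map_pow, ev_F, ← Polynomial.aeval_algHom_apply, ev_F, Polynomial.coe_aeval_eq_eval,
      zero_pow (Nat.succ_ne_zero n), zero_mul] at h1
    have h2 : Polynomial.X ∣ c := by
      rw [Polynomial.X_dvd_iff, Polynomial.coeff_zero_eq_eval_zero, ← h1]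
    obtain ⟨c', rfl⟩ := h2
    apply ih c'
    apply mul_left_cancel₀ (Fm_ne m)
    rw [map_mul, Polynomial.aeval_X] at h
    rw [← h]; ring

theorem no_coord (g : A m) (hg : g ∈ Algebra.adjoin ℂ {Fm m}) (i : Fin (4 + m)) :
    ¬ ∃ τ : A m ≃ₐ[ℂ] A m, τ g = X i := by
  rintro ⟨τ, hτ⟩
  set δ : A m → ℂ := fun f => ev m (τ.symm (pderiv i (τ f))) with hδ
  have hadd : ∀ a b, δ (a + b) = δ a + δ b := by intro a b; simp [hδ]
  have hsub : ∀ a b, δ (a - b) = δ a - δ b := by intro a b; simp [hδ]
  have hmul : ∀ a b, δ (a * b) = ev m a * δ b + ev m b * δ a := by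
    intro a b; simp [hδ]
  have hC : ∀ c : ℂ, δ (algebraMap ℂ (A m) c) = 0 := by
    intro c
    change ev m (τ.symm (pderiv i (τ (algebraMap ℂ (A m) c)))) = 0
    rw [AlgEquiv.commutes, Derivation.map_algebraMap, map_zero, map_zero]
  have hF : δ (Fm m) = 0 := by
    have h := congrArg δ (id1 (xs m 0) (xs m 1) (xs m 2) (xs m 3))
    rw [hsub, hsub, pow_two, pow_succ, pow_two, hmul, hmul, hmul, hmul] at h
    rw [map_mul, ev_r, ev_q', ev_p'] at h
    have h0 := ev_F m
    rw [Fm] at h0 ⊢
    rw [h0] at h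
    linear_combination h
  have hall_add : ∀ x y, δ x = 0 → δ y = 0 → δ (x + y) = 0 := by
    intro x y hx hy; rw [hadd, hx, hy, add_zero]
  have hall_mul : ∀ x y, δ x = 0 → δ y = 0 → δ (x * y) = 0 := by
    intro x y hx hy; rw [hmul, hx, hy, mul_zero, mul_zero, add_zero]
  have h2 : δ g = 1 := by
    simp [hδ, hτ]
  clear_value δ
  clear hτ
  have h1 : δ g = 0 := by
    clear h2
    induction hg using Algebra.adjoin_induction with
    | mem x hx => rw [Set.mem_singleton_iff.1 hx]; exact hF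
    | algebraMap r => exact hC r
    | add x y _ _ hx hy => exact hall_add x y hx hy
    | mul x y _ _ hx hy => exact hall_mul x y hx hy
  rw [h1] at h2
  exact zero_ne_one h2

end aux

/-- There is a polynomial F over ℂ in the variables x₀,…,x₃ such that, for every m, the ring A = ℂ[x₀,…,x₃₊ₘ] has a family of 3 + m derivations over ℂ, ending with the partial derivatives in x₄,…,x₃₊ₘ, such that: any two members commute; each member kills every element of A after some number of iterations; the family is linearly independent over A; the elements killed by all members form exactly the ℂ-subalgebra generated by F; and no such element is sent to x₀ by a ℂ-algebra automorphism of A. -/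
theorem result :
    ∃ F : MvPolynomial (Fin 4) ℂ, ∀ m : ℕ,
      ∃ D : Fin 3 ⊕ Fin m →
          Derivation ℂ (MvPolynomial (Fin (4 + m)) ℂ) (MvPolynomial (Fin (4 + m)) ℂ),
        (∀ i : Fin m, D (Sum.inr i) = MvPolynomial.pderiv (Fin.natAdd 4 i)) ∧
        (∀ a b : Fin 3 ⊕ Fin m, ∀ p : MvPolynomial (Fin (4 + m)) ℂ, D a (D b p) = D b (D a p)) ∧
        (∀ a : Fin 3 ⊕ Fin m, ∀ p : MvPolynomial (Fin (4 + m)) ℂ, ∃ k : ℕ, (D a)^[k] p = 0) ∧
        LinearIndependent (MvPolynomial (Fin (4 + m)) ℂ) D ∧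
        (∀ p : MvPolynomial (Fin (4 + m)) ℂ, (∀ a : Fin 3 ⊕ Fin m, D a p = 0) ↔
          p ∈ Algebra.adjoin ℂ {MvPolynomial.rename (Fin.castAdd m) F}) ∧
        ∀ g : MvPolynomial (Fin (4 + m)) ℂ, (∀ a : Fin 3 ⊕ Fin m, D a g = 0) →
          ¬ ∃ τ : MvPolynomial (Fin (4 + m)) ℂ ≃ₐ[ℂ] MvPolynomial (Fin (4 + m)) ℂ,
            τ g = MvPolynomial.X (Fin.castAdd m 0) := by
  classical
  refine ⟨Crest.Agent.R268.Comm.Ff (MvPolynomial.X 0) (MvPolynomial.X 1) (MvPolynomial.X 2)
    (MvPolynomial.X 3), fun m => ?_⟩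
  have hren : MvPolynomial.rename (Fin.castAdd m) (Crest.Agent.R268.Comm.Ff
      (MvPolynomial.X 0) (MvPolynomial.X 1) (MvPolynomial.X 2) (MvPolynomial.X 3) :
        MvPolynomial (Fin 4) ℂ) = Crest.Agent.R268.Comm.Fm m := by
    have := Crest.Agent.R268.Comm.map_F
      ((MvPolynomial.rename (Fin.castAdd m) : MvPolynomial (Fin 4) ℂ →ₐ[ℂ] _) :
        MvPolynomial (Fin 4) ℂ →+* MvPolynomial (Fin (4 + m)) ℂ)
      (MvPolynomial.X 0) (MvPolynomial.X 1) (MvPolynomial.X 2) (MvPolynomial.X 3)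
    simp only [RingHom.coe_coe, MvPolynomial.rename_X] at this
    exact this
  rw [hren]
  choose N D hpd hD using Crest.Agent.R268.Comm.exists_D m
  have hiter : ∀ a f k, Crest.Agent.R268.Comm.Ps m ((D a)^[k] f) =
      Crest.Agent.R268.Comm.Tn m ^ (k * N a) *
        (MvPolynomial.pderiv a)^[k] (Crest.Agent.R268.Comm.Ps m f) := by
    intro a f k
    induction k with
    | zero => simp
    | succ k ih =>
      rw [Function.iterate_succ', Function.comp_apply, hD, ih,
        Crest.Agent.R268.Comm.pderiv_Tn_pow, Function.iterate_succ', Function.comp_apply]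
      ring
  have hker : ∀ p : MvPolynomial (Fin (4 + m)) ℂ, (∀ a : Fin 3 ⊕ Fin m, D a p = 0) →
      p ∈ Algebra.adjoin ℂ {Crest.Agent.R268.Comm.Fm m} := by
    intro p hp
    have h1 : ∀ a, MvPolynomial.pderiv a (Crest.Agent.R268.Comm.Ps m p) = 0 := by
      intro a
      have h2 := hD a p
      rw [hp a, map_zero] at h2
      rcases mul_eq_zero.1 h2.symm with h3 | h3
      · exfalso
        have h4 : Crest.Agent.R268.Comm.Tn m ≠ 0 := by
          intro h5
          have h6 := Crest.Agent.R268.Comm.hTt m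
          rw [h5, zero_mul] at h6
          exact zero_ne_one h6
        exact pow_ne_zero _ h4 h3
      · exact h3
    obtain ⟨n, h, hn⟩ := Crest.Agent.R268.Comm.good_all m p
    have h2 : ∀ a, MvPolynomial.pderiv a h = 0 := by
      intro a
      apply Crest.Agent.R268.Comm.incl_inj m
      rw [map_zero, Crest.Agent.R268.Comm.incl, ← MvPolynomial.pderiv_map]
      change MvPolynomial.pderiv a (Crest.Agent.R268.Comm.incl m h) = 0
      rw [← Crest.Agent.R268.Comm.Ps_Th, ← hn, map_mul, map_pow, Crest.Agent.R268.Comm.Ps_F,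
        Crest.Agent.R268.Comm.pderiv_Tn_pow, h1 a, mul_zero]
    obtain ⟨c, rfl⟩ := Crest.Agent.R268.Comm.eq_C_of_pderiv_eq_zero h h2
    rw [Crest.Agent.R268.Comm.Th_C] at hn
    exact descent m n c p hn
  refine ⟨D, fun i => hpd (Sum.inr i) i rfl, ?_, ?_, ?_, ?_, ?_⟩
  · intro a b p
    apply Crest.Agent.R268.Comm.Ps_inj m
    rw [hD, hD, hD, hD, Crest.Agent.R268.Comm.pderiv_Tn_pow, Crest.Agent.R268.Comm.pderiv_Tn_pow,
      Crest.Agent.R268.Comm.pderiv_comm]
    ring
  · intro a p
    obtain ⟨k, hk⟩ := Crest.Agent.R268.Comm.pderiv_nilp a (Crest.Agent.R268.Comm.Ps m p)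
    refine ⟨k, ?_⟩
    apply Crest.Agent.R268.Comm.Ps_inj m
    rw [hiter, hk, mul_zero, map_zero]
  · rw [Fintype.linearIndependent_iff]
    intro c hc b
    have h1 : ∀ a, D a (Crest.Agent.R268.Comm.Th m (MvPolynomial.X b)) =
        if a = b then Crest.Agent.R268.Comm.Fm m ^ N a else 0 := by
      intro a
      apply Crest.Agent.R268.Comm.Ps_inj m
      rw [hD, Crest.Agent.R268.Comm.Ps_Th, Crest.Agent.R268.Comm.incl, MvPolynomial.map_X,
        MvPolynomial.pderiv_X]
      by_cases hab : a = b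
      · subst hab
        simp [Crest.Agent.R268.Comm.Ps_F]
      · rw [if_neg hab, map_zero, Pi.single_eq_of_ne (fun h => hab h.symm), mul_zero]
    let φ : Derivation ℂ (MvPolynomial (Fin (4 + m)) ℂ) (MvPolynomial (Fin (4 + m)) ℂ) →+
        MvPolynomial (Fin (4 + m)) ℂ :=
      { toFun := fun E => E (Crest.Agent.R268.Comm.Th m (MvPolynomial.X b))
        map_zero' := rfl
        map_add' := fun _ _ => rfl }
    have h2 := congrArg φ hc
    rw [map_sum, map_zero] at h2
    have h3 : ∀ a, φ (c a • D a) = if a = b then c a * Crest.Agent.R268.Comm.Fm m ^ N a else 0 := by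
      intro a
      change c a * D a (Crest.Agent.R268.Comm.Th m (MvPolynomial.X b)) = _
      rw [h1]
      split_ifs
      · rfl
      · rw [mul_zero]
    simp only [h3, Finset.sum_ite_eq', Finset.mem_univ, if_true] at h2
    rcases mul_eq_zero.1 h2 with h4 | h4
    · exact h4
    · exact absurd h4 (pow_ne_zero _ (Crest.Agent.R268.Comm.Fm_ne m))
  · intro p
    refine ⟨hker p, fun hp a => ?_⟩
    have hF : D a (Crest.Agent.R268.Comm.Fm m) = 0 := by
      apply Crest.Agent.R268.Comm.Ps_inj m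
      rw [hD, Crest.Agent.R268.Comm.Ps_F, map_zero, Crest.Agent.R268.Comm.Tn,
        MvPolynomial.pderiv_C, mul_zero]
    induction hp using Algebra.adjoin_induction with
    | mem x hx => rw [Set.mem_singleton_iff.1 hx]; exact hF
    | algebraMap r => exact Derivation.map_algebraMap _ r
    | add x y _ _ hx hy => rw [map_add, hx, hy, add_zero]
    | mul x y _ _ hx hy => rw [Derivation.leibniz, hx, hy, smul_zero, smul_zero, add_zero]
  · intro g hg
    exact no_coord m g (hker g hg) _

end Crest.Agent.S0410
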