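import Crest.Statements.S0456
import Crest.Agent.R300.U.UFin
import Crest.Agent.R300.U.Eval

set_option autoImplicit false
open Crest.FinProb Crest.TraceRecon
open Crest Crest.LogicCS

namespace Crest.Agent.S0456

/-- There is an absolute constant C such that for every alphabet size s ≥ 2, every length n ≥ 2 and every retention probability 0 < p < 1, writing X = 1 + log n/(1 + log(1/(1 − p))), some reconstruction rule that sees m independent deletion traces of a word of length n over s symbols (retained symbols observed exactly, in order), with m ≤ exp(C·p⁻¹·(log n)·X²·(1 + log X)⁶), returns every such word with probability at least 2/3. Logarithms are natural. -/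
theorem result :
    ∃ C : ℝ, ∀ s : ℕ, 2 ≤ s → ∀ n : ℕ, 2 ≤ n → ∀ p : ℝ, 0 < p → p < 1 →
      ∃ m : ℕ, (m : ℝ) ≤ Real.exp (C * p⁻¹ * Real.log n *
          (1 + Real.log n / (1 + Real.log (1 / (1 - p)))) ^ 2 *
          (1 + Real.log (1 + Real.log n / (1 + Real.log (1 / (1 - p))))) ^ 6) ∧
        ∃ K : (Fin m → List (Fin s)) → (Fin n → Fin s) → ℝ, IsSymRule K ∧
          ∀ x : Fin n → Fin s, 2 / 3 ≤ symSuccessProb p K x := by
  exact Crest.Agent.R300U.sample_upper_of_UMain Crest.Agent.R300U.uMain

end Crest.Agent.S0456
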