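import Crest.Statements.S0470
import Crest.Agent.R307.Glue72
import Crest.Agent.R307.FFfinal

set_option autoImplicit false
open Crest.CubeNoise
open Crest Crest.LogicCS

namespace Crest.Agent.S0470

/-- Let u be a real function on the n-dimensional Boolean cube with all values in [-1, 1], read as the conditional mean of a random sign given a uniform cube point; let ρ have absolute value at most 1 and 0 ≤ r ≤ 1. If the mutual information (natural units) between sign and point equals log 2 minus the entropy of a sign of mean r, then the information of the noisy version of u with correlation ρ is at most log 2 minus the entropy of a sign of mean (absolute value of ρ)·r. -/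
theorem result (n : ℕ) (u : (Fin n → Bool) → ℝ)
    (hu : ∀ x, |u x| ≤ 1) (ρ : ℝ) (hρ : |ρ| ≤ 1) (r : ℝ) (hr : 0 ≤ r) (hr1 : r ≤ 1)
    (hI : information u = Real.log 2 - signEntropy r) :
    information (noise ρ u) ≤ Real.log 2 - signEntropy (|ρ| * r) := by
  exact Crest.Agent.R307.s0470_of_FF Crest.Agent.R307.ffStmt n u hu ρ hρ r hr hr1 hI

end Crest.Agent.S0470
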