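import Crest.Statements.S0505
import Crest.Agent.R327.UpperPath
import Crest.Agent.R327.UpperCirc

set_option autoImplicit false
universe u
open Crest Crest.LogicCS

namespace Crest.Agent.S0505

open Crest.Agent.R327.Upper in
theorem size_bound (n t r : ℕ) (hn : 3 ≤ n) (htn : t ≤ n) (hrt : r ≤ t)
    (ht1 : (t : ℝ) < Real.sqrt n + 1) (hr1 : 1 ≤ r) :
    ((2 * n ^ 3 + r * n ^ 2 + r * n ^ (t + 1) + n ^ (r - 1) + 1 : ℕ) : ℝ)
      ≤ (n : ℝ) ^ (Real.sqrt n + 4) := by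
  have hn0 : (0:ℝ) < n := by exact_mod_cast (by omega : 0 < n)
  have hn1 : (1:ℝ) ≤ n := by exact_mod_cast (by omega : 1 ≤ n)
  have hn3 : (3:ℝ) ≤ n := by exact_mod_cast hn
  have hs1 : (1:ℝ) ≤ Real.sqrt n := by
    rw [Real.one_le_sqrt]; exact hn1
  set N : ℝ := (n:ℝ) ^ (Real.sqrt n) with hN
  have hNn : (n:ℝ) ≤ N := by
    calc (n:ℝ) = (n:ℝ) ^ (1:ℝ) := (Real.rpow_one _).symm
      _ ≤ N := Real.rpow_le_rpow_of_exponent_le hn1 hs1
  have hr : (r:ℝ) ≤ n := by exact_mod_cast hrt.trans htn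
  have hr1' : (1:ℝ) ≤ r := by exact_mod_cast hr1
  have e1 : (n:ℝ) ^ (t + 1) ≤ N * (n:ℝ) ^ 2 := by
    have : (n:ℝ) ^ (t + 1) = (n:ℝ) ^ (((t + 1 : ℕ)) : ℝ) := (Real.rpow_natCast _ _).symm
    rw [this]
    have h2 : N * (n:ℝ) ^ 2 = (n:ℝ) ^ (Real.sqrt n + 2) := by
      rw [Real.rpow_add hn0, hN]
      congr 1
      exact (Real.rpow_natCast _ _).symm
    rw [h2]
    apply Real.rpow_le_rpow_of_exponent_le hn1
    push_cast
    linarith
  have e2 : (n:ℝ) ^ (r - 1) ≤ N := by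
    have : (n:ℝ) ^ (r - 1) = (n:ℝ) ^ (((r - 1 : ℕ)) : ℝ) := (Real.rpow_natCast _ _).symm
    rw [this, hN]
    apply Real.rpow_le_rpow_of_exponent_le hn1
    have : (((r - 1 : ℕ)) : ℝ) ≤ (t:ℝ) - 1 := by
      rw [Nat.cast_sub hr1]
      have : (r:ℝ) ≤ t := by exact_mod_cast hrt
      push_cast
      linarith
    linarith
  have e3 : (n : ℝ) ^ (Real.sqrt n + 4) = N * (n:ℝ) ^ 4 := by
    rw [Real.rpow_add hn0, hN]
    congr 1
    exact Real.rpow_natCast _ 4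
  rw [e3]
  push_cast
  have hN1 : (1:ℝ) ≤ N := hn1.trans hNn
  have hn2 : (9:ℝ) ≤ (n:ℝ) ^ 2 := by nlinarith
  have hn2pos : (0:ℝ) < (n:ℝ) ^ 2 := by positivity
  have f1 : 2 * (n:ℝ) ^ 3 ≤ 2 * (N * (n:ℝ) ^ 2) := by
    have : (n:ℝ) ^ 3 = n * (n:ℝ) ^ 2 := by ring
    rw [this]
    have := mul_le_mul_of_nonneg_right hNn hn2pos.le
    linarith
  have f2 : (r:ℝ) * (n:ℝ) ^ 2 ≤ N * (n:ℝ) ^ 2 :=
    mul_le_mul_of_nonneg_right (hr.trans hNn) hn2pos.le
  have f3 : (r:ℝ) * (n:ℝ) ^ (t + 1) ≤ n * (N * (n:ℝ) ^ 2) :=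
    mul_le_mul hr e1 (by positivity) hn0.le
  have f4 : (n:ℝ) ^ (r - 1) + 1 ≤ N * (n:ℝ) ^ 2 := by nlinarith
  have hM : 0 ≤ N * (n:ℝ) ^ 2 := by positivity
  have key : (4 + (n:ℝ)) * (N * (n:ℝ) ^ 2) ≤ N * (n:ℝ) ^ 4 := by
    have : N * (n:ℝ) ^ 4 = (n:ℝ) ^ 2 * (N * (n:ℝ) ^ 2) := by ring
    rw [this]
    apply mul_le_mul_of_nonneg_right _ hM
    nlinarith
  linarith

/-- For every field K and every n ≥ 2 there is a syntactically homogeneous depth-five sum-product circuit over K in the n³ matrix-entry variables (shared gates, unrestricted fan-in and bottom support) whose output is the top-left entry of the ordered product of the n variable matrices of order n and whose number of vertices, leaves included, is at most 2n³ + r·n² + r·n^(t+1) + n^(r−1) + 1 with t = ⌈√n⌉, r = ⌈n/t⌉, and also at most n^(√n + 4). Layers are indexed by initial segments of ℕ. -/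
theorem result (K : Type u) [Field K] (n : ℕ)
    (hn : 2 ≤ n) :
    ∃ (l b p s r : ℕ)
      (C : Crest.ArithCircuit.SPSPS K (Fin n × Fin n × Fin n) (Fin l) (Fin b) (Fin p) (Fin s) (Fin r)),
      C.IsHomogeneous ∧ C.output = Crest.ArithCircuit.imm K n ∧
        C.size ≤ 2 * n ^ 3 + ⌈(n : ℝ) / ⌈Real.sqrt n⌉₊⌉₊ * n ^ 2 +
          ⌈(n : ℝ) / ⌈Real.sqrt n⌉₊⌉₊ * n ^ (⌈Real.sqrt n⌉₊ + 1) +
          n ^ (⌈(n : ℝ) / ⌈Real.sqrt n⌉₊⌉₊ - 1) + 1 ∧
        (C.size : ℝ) ≤ (n : ℝ) ^ (Real.sqrt n + 4) := by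
  obtain ⟨n', rfl⟩ : ∃ n', n = n' + 1 := ⟨n - 1, by omega⟩
  set N := n' + 1 with hN
  have hNpos : 0 < N := by omega
  have hNr : (0:ℝ) < (N:ℝ) := by exact_mod_cast hNpos
  have hN1 : (1:ℝ) ≤ (N:ℝ) := by exact_mod_cast hNpos
  have hsq1 : (1:ℝ) ≤ Real.sqrt N := by rw [Real.one_le_sqrt]; exact hN1
  have hsqpos : (0:ℝ) < Real.sqrt N := by linarith
  generalize ht : ⌈Real.sqrt (N:ℝ)⌉₊ = t
  have ht_ge : Real.sqrt N ≤ t := by rw [← ht]; exact Nat.le_ceil _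
  have ht_lt : (t:ℝ) < Real.sqrt N + 1 := by rw [← ht]; exact Nat.ceil_lt_add_one hsqpos.le
  have htpos : 0 < t := by rw [← ht]; exact Nat.ceil_pos.mpr hsqpos
  have htr : (0:ℝ) < (t:ℝ) := by exact_mod_cast htpos
  have htN : t ≤ N := by
    rw [← ht]
    apply Nat.ceil_le.mpr
    rw [Real.sqrt_le_left hNr.le]
    nlinarith
  generalize hr : ⌈(N:ℝ) / (t:ℝ)⌉₊ = r
  have hdivpos : (0:ℝ) < (N:ℝ) / t := by positivity
  have hrpos : 0 < r := by rw [← hr]; exact Nat.ceil_pos.mpr hdivpos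
  have hr_ge : N ≤ r * t := by
    have : (N:ℝ) / t ≤ r := by rw [← hr]; exact Nat.le_ceil _
    rw [div_le_iff₀ htr] at this
    exact_mod_cast this
  have hr_lt : (r - 1) * t < N := by
    have : (r:ℝ) < (N:ℝ) / t + 1 := by rw [← hr]; exact Nat.ceil_lt_add_one hdivpos.le
    have h2 : ((r:ℝ) - 1) * t < N := by
      have : (r:ℝ) - 1 < (N:ℝ) / t := by linarith
      rwa [lt_div_iff₀ htr] at this
    have h3 : (((r - 1 : ℕ)) : ℝ) = (r:ℝ) - 1 := by rw [Nat.cast_sub hrpos]; simp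
    rw [← h3] at h2
    exact_mod_cast h2
  have hrt : r ≤ t := by
    rw [← hr, ← ht]
    apply Nat.ceil_mono
    rw [ht, div_le_iff₀ htr]
    calc (N:ℝ) = Real.sqrt N * Real.sqrt N := (Real.mul_self_sqrt hNr.le).symm
      _ ≤ Real.sqrt N * t := mul_le_mul_of_nonneg_left ht_ge hsqpos.le
  obtain ⟨r', rfl⟩ : ∃ r', r = r' + 1 := ⟨r - 1, by omega⟩
  simp only [Nat.add_sub_cancel] at hr_lt ⊢
  let eV : Fin (n'+1) × Fin (n'+1) × Fin (n'+1) ≃ Fin (Fintype.card (Fin (n'+1) × Fin (n'+1) × Fin (n'+1))) :=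
    Fintype.equivFin _
  let eP := Fintype.equivFin (Fin (r'+1) × (Fin (t + 1) → Fin (n'+1)))
  let eS := Fintype.equivFin (Fin (r'+1) × Fin (n'+1) × Fin (n'+1))
  let eR := Fintype.equivFin (Fin r' → Fin (n'+1))
  refine ⟨_, _, _, _, _, Crest.Agent.R327.Upper.reindex
    (Crest.Agent.R327.Upper.circ K n' t r') eV eV eP eS eR, ?_, ?_, ?_, ?_⟩
  · exact Crest.Agent.R327.Upper.reindex_homogeneous _ _ _ _ _ _
      (Crest.Agent.R327.Upper.circ_homogeneous K n' t r' hr_lt htpos)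
  · rw [Crest.Agent.R327.Upper.reindex_output]
    exact Crest.Agent.R327.Upper.circ_output_imm K n' t r' hr_ge
  · simp only [Crest.ArithCircuit.SPSPS.size, Fintype.card_fin, Fintype.card_prod, Fintype.card_fun]
    apply le_of_eq
    rw [hN]
    ring
  · have hsize : (Crest.Agent.R327.Upper.reindex
        (Crest.Agent.R327.Upper.circ K n' t r') eV eV eP eS eR).size
        = 2 * N ^ 3 + (r' + 1) * N ^ 2 + (r' + 1) * N ^ (t + 1) + N ^ (r' + 1 - 1) + 1 := by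
      simp only [Crest.ArithCircuit.SPSPS.size, Fintype.card_fin, Fintype.card_prod,
        Fintype.card_fun, Nat.add_sub_cancel]
      rw [hN]
      ring
    rw [hsize]
    by_cases h3 : 3 ≤ N
    · exact size_bound N t (r'+1) h3 htN hrt ht_lt (by omega)
    · have hN2 : N = 2 := by omega
      have ht2 : t ≤ 2 := by omega
      have hr0 : r' = 0 := by
        by_contra hne
        have hr1 : 1 ≤ r' := by omega
        have : r' + 1 ≤ t := hrt
        have ht2' : t = 2 := by omega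
        rw [ht2', hN2] at hr_lt
        omega
      rw [hr0, hN2]
      have hsq : (1:ℝ) ≤ Real.sqrt (2:ℕ) := by rw [Real.one_le_sqrt]; norm_num
      have h5 : (2:ℝ) ^ (5:ℝ) ≤ ((2:ℕ):ℝ) ^ (Real.sqrt (2:ℕ) + 4) := by
        have : ((2:ℕ):ℝ) = 2 := by norm_num
        rw [this]
        apply Real.rpow_le_rpow_of_exponent_le (by norm_num)
        rw [this] at hsq
        linarith
      have h6 : (2:ℝ) ^ (5:ℝ) = 32 := by
        rw [show (5:ℝ) = ((5:ℕ):ℝ) by norm_num, Real.rpow_natCast]; norm_num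
      rw [h6] at h5
      refine le_trans ?_ h5
      have h7 : 2 ^ (t + 1) ≤ 2 ^ 3 := Nat.pow_le_pow_right (by norm_num) (by omega)
      have h8 : (2 * 2 ^ 3 + (0 + 1) * 2 ^ 2 + (0 + 1) * 2 ^ (t + 1) + 2 ^ (0 + 1 - 1) + 1 : ℕ) ≤ 32 := by
        norm_num at h7 ⊢
        omega
      exact_mod_cast h8

end Crest.Agent.S0505
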